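import Mathlib

/-!
# The Mézard–Parisi formula fails for a member of the class

The class is the one of the problem file: `e^θ = a (1 + b f₁(σ₁)⋯f_K(σ_K))` with random `a > 0`,
`b ∈ (-1,1)`, `f_j : {-1,1} → [-1,1]` and `E(-b)^n ≥ 0`.
-/

namespace Vale.Agent.H16.MP

open MeasureTheory Filter Topology

/-- A spin, `±1`. -/
abbrev Spin := ℤˣ

/-- The value of a spin as a real number. -/
noncomputable def val (s : Spin) : ℝ := ((s : ℤ) : ℝ)

/-- A model of the class, for a given `K`.  `Ω, P` carries the randomness of the function `θ`, `η`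
is the law of the random field. -/
structure Model (K : ℕ) where
  Ω : Type
  ms : MeasurableSpace Ω
  P : Measure Ω
  a : Ω → ℝ
  b : Ω → ℝ
  f : Fin K → Ω → Spin → ℝ
  η : Measure ℝ

attribute [instance] Model.ms

/-- The random function `θ`, with `e^θ = a (1 + b f₁(σ₁)⋯f_K(σ_K))`. -/
noncomputable def Model.θ {K : ℕ} (M : Model K) (ω : M.Ω) (σ : Fin K → Spin) : ℝ :=
  Real.log (M.a ω * (1 + M.b ω * ∏ j, M.f j ω (σ j)))

/-- The conditions defining the class. -/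
structure Model.InClass {K : ℕ} (M : Model K) : Prop where
  prob : IsProbabilityMeasure M.P
  probη : IsProbabilityMeasure M.η
  meas_a : Measurable M.a
  meas_b : Measurable M.b
  meas_f : ∀ j s, Measurable fun ω => M.f j ω s
  a_pos : ∀ ω, 0 < M.a ω
  b_mem : ∀ ω, -1 < M.b ω ∧ M.b ω < 1
  f_mem : ∀ j ω s, |M.f j ω s| ≤ 1
  positivity : ∀ n : ℕ, 1 ≤ n → 0 ≤ ∫ ω, (-M.b ω) ^ n ∂M.P
  field_int : Integrable (fun h : ℝ => h) M.η
  theta_int : Integrable (fun ω => ⨆ σ : Fin K → Spin, |M.θ ω σ|) M.P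

/-- Poisson weights. -/
noncomputable def pois (c : ℝ) (n : ℕ) : ℝ := Real.exp (-c) * c ^ n / n.factorial

/-- `log Σ_σ e^{H_N(σ)}` for `n` interactions with functions `θ_{ω k}` at the indices `i k j`. -/
noncomputable def logZ {K : ℕ} (M : Model K) (N n : ℕ) (ω : Fin n → M.Ω)
    (i : Fin n → Fin K → Fin N) (h : Fin N → ℝ) : ℝ :=
  Real.log (∑ σ : Fin N → Spin,
    Real.exp (∑ k, M.θ (ω k) (fun j => σ (i k j)) + ∑ s, h s * val (σ s)))

/-- The pressure `F_N`. -/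
noncomputable def F {K : ℕ} (M : Model K) (lam : ℝ) (N : ℕ) : ℝ :=
  1 / N * ∑' n : ℕ, pois (lam * N) n *
    ((∑ i : Fin n → Fin K → Fin N, ∫ ω : Fin n → M.Ω, ∫ h : Fin N → ℝ, logZ M N n ω i h
      ∂(Measure.pi fun _ => M.η) ∂(Measure.pi fun _ => M.P)) /
      (Fintype.card (Fin n → Fin K → Fin N) : ℝ))

/-- The uniform law of the level variables of messages indexed by `I`. -/
noncomputable def unif (I : Type) [Fintype I] : Measure (I → ℝ) :=
  Measure.pi fun _ => (volume : Measure ℝ).restrict (Set.Icc 0 1)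

/-- One step `Y ↦ (E_p Y^m)^{1/m}` at level `p`.  The level variables are `w : level → message → ℝ`. -/
noncomputable def step {r : ℕ} {I : Type} [Fintype I] (p : Fin (r + 1)) (m : ℝ)
    (Y : (Fin (r + 1) → I → ℝ) → ℝ) : (Fin (r + 1) → I → ℝ) → ℝ :=
  fun w => (∫ u : I → ℝ, (Y (Function.update w p u)) ^ m ∂(unif I)) ^ (1 / m)

/-- `E log Y₀` over the level-`0` variables, where `Y_{p-1} = (E_p Y_p^{m_p})^{1/m_p}`, `p = r,…,1`.
(`m q` stands for `m_{q+1}`, `q = 0,…,r-1`.) -/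
noncomputable def levels {r : ℕ} {I : Type} [Fintype I] (m : Fin r → ℝ)
    (Y : (Fin (r + 1) → I → ℝ) → ℝ) : ℝ :=
  ∫ u : I → ℝ, Real.log (((List.finRange r).foldr (fun q Z => step q.succ (m q) Z) Y)
    (Function.update 0 0 u)) ∂(unif I)

/-- `U` for `n` interactions at positions `ℓ`, as a function of the messages `x k j`. -/
noncomputable def U {K : ℕ} (M : Model K) (n : ℕ) (ω : Fin n → M.Ω) (l : Fin n → Fin K) (h : ℝ)
    (x : Fin n × Fin K → ℝ) : ℝ :=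
  ∑ ε : Spin, Real.exp (h * val ε) * ∏ k, ∑ σ : Fin K → Spin,
    if σ (l k) = ε then Real.exp (M.θ (ω k) σ) *
      ∏ j, (if j = l k then 1 else (1 + x (k, j) * val (σ j)) / 2) else 0

/-- `V` for `n` interactions. -/
noncomputable def V {K : ℕ} (M : Model K) (n : ℕ) (ω : Fin n → M.Ω)
    (x : Fin n × Fin K → ℝ) : ℝ :=
  ∏ k, ∑ σ : Fin K → Spin, Real.exp (M.θ (ω k) σ) * ∏ j, (1 + x (k, j) * val (σ j)) / 2

/-- `𝒯U`. -/
noncomputable def TU {K : ℕ} (M : Model K) (lam : ℝ) {r : ℕ} (m : Fin r → ℝ)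
    (x : (Fin (r + 1) → ℝ) → ℝ) : ℝ :=
  ∑' n : ℕ, pois (K * lam) n *
    ((∑ l : Fin n → Fin K, ∫ ω : Fin n → M.Ω, ∫ h : ℝ,
      levels m (fun w : Fin (r + 1) → Fin n × Fin K → ℝ => U M n ω l h fun i => x fun p => w p i)
      ∂M.η ∂(Measure.pi fun _ => M.P)) / (Fintype.card (Fin n → Fin K) : ℝ))

/-- `𝒯V`. -/
noncomputable def TV {K : ℕ} (M : Model K) (lam : ℝ) {r : ℕ} (m : Fin r → ℝ)
    (x : (Fin (r + 1) → ℝ) → ℝ) : ℝ :=
  ∑' n : ℕ, pois ((K - 1) * lam) n * ∫ ω : Fin n → M.Ω,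
      levels m (fun w : Fin (r + 1) → Fin n × Fin K → ℝ => V M n ω fun i => x fun p => w p i)
      ∂(Measure.pi fun _ => M.P)

/-- Admissible parameters: `0 < m₁ < ⋯ < m_r < 1`, `x` measurable with values in `[-1,1]`. -/
def Admissible {r : ℕ} (m : Fin r → ℝ) (x : (Fin (r + 1) → ℝ) → ℝ) : Prop :=
  StrictMono m ∧ (∀ q, 0 < m q ∧ m q < 1) ∧ Measurable x ∧ ∀ w, |x w| ≤ 1

/-- `Φ_r`. -/
noncomputable def Phi {K : ℕ} (M : Model K) (lam : ℝ) (r : ℕ) : EReal :=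
  ⨅ (m : Fin r → ℝ) (x : (Fin (r + 1) → ℝ) → ℝ) (_ : Admissible m x),
    ((TU M lam m x - TV M lam m x : ℝ) : EReal)

end Vale.Agent.H16.MP
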