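import Vale.Agent.H16.MPDefs

namespace Vale.Agent.H16.MP

open MeasureTheory Filter Topology

/-! ### The counterexample -/

/-- `K = 2`, `a = 1`, `b = -1/2`, `f₁(σ) = σ`, `f₂(σ) = -σ`, no field. -/
noncomputable def ferro : Model 2 where
  Ω := Unit
  ms := inferInstance
  P := Measure.dirac ()
  a := fun _ => 1
  b := fun _ => -(1 / 2)
  f := fun j _ s => if j = 0 then val s else -val s
  η := Measure.dirac 0

lemma val_one : val 1 = 1 := by simp [val]
lemma val_neg_one : val (-1) = -1 := by simp [val]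

lemma val_sq (s : Spin) : val s * val s = 1 := by
  rcases Int.units_eq_one_or s with h | h <;> rw [h] <;> simp [val]

lemma theta_ferro (ω : ferro.Ω) (σ : Fin 2 → Spin) :
    ferro.θ ω σ = Real.log (1 + 1 / 2 * (val (σ 0) * val (σ 1))) := by
  simp only [Model.θ, ferro, Fin.prod_univ_two]
  congr 1
  simp

lemma exp_theta_ferro (ω : ferro.Ω) (σ : Fin 2 → Spin) :
    Real.exp (ferro.θ ω σ) = 1 + 1 / 2 * (val (σ 0) * val (σ 1)) := by
  rw [theta_ferro, Real.exp_log]
  rcases Int.units_eq_one_or (σ 0) with h | h <;> rcases Int.units_eq_one_or (σ 1) with h' | h' <;>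
    rw [h, h'] <;> simp [val] <;> norm_num

lemma ferro_inClass : ferro.InClass where
  prob := by unfold ferro; infer_instance
  probη := by unfold ferro; infer_instance
  meas_a := by unfold ferro; exact measurable_const
  meas_b := by unfold ferro; exact measurable_const
  meas_f := by intro j s; unfold ferro; exact measurable_const
  a_pos := by intro ω; simp [ferro]
  b_mem := by intro ω; simp only [ferro]; constructor <;> norm_num
  f_mem := by
    intro j ω s
    simp only [ferro]
    rcases Int.units_eq_one_or s with h | h <;> rw [h] <;> split_ifs <;> simp [val]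
  positivity := by
    intro n _
    simp only [ferro, neg_neg]
    exact integral_nonneg fun _ => by positivity
  field_int := by
    simp only [ferro]
    exact integrable_dirac (by simp)
  theta_int := by
    have : IsProbabilityMeasure ferro.P := by unfold ferro; infer_instance
    have h : (fun ω => ⨆ σ : Fin 2 → Spin, |ferro.θ ω σ|) =
        fun _ : ferro.Ω => ⨆ σ : Fin 2 → Spin, |Real.log (1 + 1 / 2 * (val (σ 0) * val (σ 1)))| := by
      funext ω
      simp only [theta_ferro]
    rw [h]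
    exact integrable_const _

lemma pi_dirac {ι : Type} [Fintype ι] {α : Type} [MeasurableSpace α] (a : ι → α) :
    (Measure.pi fun i => Measure.dirac (a i)) = Measure.dirac a := by
  apply Measure.pi_eq
  intro s hs
  rw [Measure.dirac_apply' _ (MeasurableSet.univ_pi hs)]
  have : ∀ i, Measure.dirac (a i) (s i) = (s i).indicator 1 (a i) :=
    fun i => Measure.dirac_apply' _ (hs i)
  simp only [this]
  by_cases h : a ∈ Set.pi Set.univ s
  · rw [Set.indicator_of_mem h, Pi.one_apply]
    symm
    apply Finset.prod_eq_one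
    intro i _
    rw [Set.indicator_of_mem (h i (Set.mem_univ i)), Pi.one_apply]
  · rw [Set.indicator_of_notMem h]
    symm
    simp only [Set.mem_pi, Set.mem_univ, true_imp_iff, not_forall] at h
    obtain ⟨i, hi⟩ := h
    apply Finset.prod_eq_zero (Finset.mem_univ i)
    exact Set.indicator_of_notMem hi _

lemma theta_le (ω : ferro.Ω) (σ : Fin 2 → Spin) : ferro.θ ω σ ≤ Real.log (3 / 2) := by
  rw [theta_ferro]
  apply Real.log_le_log
  · rcases Int.units_eq_one_or (σ 0) with h | h <;> rcases Int.units_eq_one_or (σ 1) with h' | h' <;>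
      rw [h, h'] <;> simp [val] <;> norm_num
  · rcases Int.units_eq_one_or (σ 0) with h | h <;> rcases Int.units_eq_one_or (σ 1) with h' | h' <;>
      rw [h, h'] <;> simp [val] <;> norm_num

lemma theta_one (ω : ferro.Ω) : ferro.θ ω (fun _ => 1) = Real.log (3 / 2) := by
  rw [theta_ferro, val_one]
  norm_num

lemma logZ_lower (N n : ℕ) (ω : Fin n → ferro.Ω) (i : Fin n → Fin 2 → Fin N) :
    n * Real.log (3 / 2) ≤ logZ ferro N n ω i (fun _ => 0) := by
  have key : ∀ g : (Fin N → Spin) → ℝ, (∀ σ, 0 ≤ g σ) → ∀ τ, g τ ≤ ∑ σ, g σ :=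
    fun g hg τ => Finset.single_le_sum (fun σ _ => hg σ) (Finset.mem_univ τ)
  have h1 := key (fun σ => Real.exp (∑ k, ferro.θ (ω k) (fun j => σ (i k j)) +
    ∑ s, (0 : ℝ) * val (σ s))) (fun σ => (Real.exp_pos _).le) (fun _ => 1)
  simp only [theta_one] at h1
  rw [show (∑ _k : Fin n, Real.log (3 / 2) + ∑ _s : Fin N, (0 : ℝ) * val 1) =
    n * Real.log (3 / 2) by simp] at h1
  have h3 := Real.log_le_log (Real.exp_pos _) h1
  rw [Real.log_exp] at h3
  exact h3

lemma logZ_upper (N n : ℕ) (ω : Fin n → ferro.Ω) (i : Fin n → Fin 2 → Fin N) :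
    logZ ferro N n ω i (fun _ => 0) ≤ n * Real.log (3 / 2) + N * Real.log 2 := by
  have h1 : ∑ σ : Fin N → Spin,
      Real.exp (∑ k, ferro.θ (ω k) (fun j => σ (i k j)) + ∑ s, (0 : ℝ) * val (σ s)) ≤
      Real.exp (n * Real.log (3 / 2) + N * Real.log 2) := by
    have hb : ∀ σ : Fin N → Spin,
        Real.exp (∑ k, ferro.θ (ω k) (fun j => σ (i k j)) + ∑ s, (0 : ℝ) * val (σ s)) ≤
        Real.exp (n * Real.log (3 / 2)) := by
      intro σ
      apply Real.exp_le_exp.2
      simp only [zero_mul, Finset.sum_const_zero, add_zero]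
      calc ∑ k, ferro.θ (ω k) (fun j => σ (i k j)) ≤ ∑ _k : Fin n, Real.log (3 / 2) :=
            Finset.sum_le_sum fun k _ => theta_le _ _
        _ = n * Real.log (3 / 2) := by simp
    calc _ ≤ ∑ _σ : Fin N → Spin, Real.exp (n * Real.log (3 / 2)) :=
          Finset.sum_le_sum fun σ _ => hb σ
      _ = 2 ^ N * Real.exp (n * Real.log (3 / 2)) := by
          simp
      _ = _ := by
          rw [Real.exp_add, mul_comm, Real.exp_nat_mul (Real.log 2), Real.exp_log (by norm_num)]
  unfold logZ
  calc _ ≤ Real.log (Real.exp (n * Real.log (3 / 2) + N * Real.log 2)) := by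
        apply Real.log_le_log _ h1
        exact Finset.sum_pos (fun _ _ => Real.exp_pos _) Finset.univ_nonempty
    _ = _ := Real.log_exp _

/-- The disorder of `ferro` is trivial. -/
lemma int_ferro (N n : ℕ) (G : (Fin n → ferro.Ω) → (Fin N → ℝ) → ℝ) :
    ∫ ω : Fin n → ferro.Ω, ∫ h : Fin N → ℝ, G ω h
      ∂(Measure.pi fun _ => ferro.η) ∂(Measure.pi fun _ => ferro.P) =
    G (fun _ => ()) (fun _ => 0) := by
  have h1 : (Measure.pi fun _ : Fin N => ferro.η) = Measure.dirac (fun _ => (0 : ℝ)) :=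
    pi_dirac (fun _ : Fin N => (0 : ℝ))
  have h2 : (Measure.pi fun _ : Fin n => ferro.P) = Measure.dirac (fun _ => ()) :=
    pi_dirac (fun _ : Fin n => ())
  rw [h1, h2]
  simp only [integral_dirac]
  exact integral_dirac (α := Fin n → Unit) (fun ω => G ω (fun _ => 0)) (fun _ => ())

lemma hasSum_of_eq {f g : ℕ → ℝ} {a : ℝ} (h : HasSum f a) (hfg : ∀ n, f n = g n) :
    HasSum g a := by
  rwa [← funext hfg]

lemma hasSum_pois (c : ℝ) : HasSum (pois c) 1 := by
  have h := NormedSpace.expSeries_div_hasSum_exp (𝔸 := ℝ) c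
  have h2 := h.mul_left (Real.exp (-c))
  rw [← Real.exp_eq_exp_ℝ, ← Real.exp_add, neg_add_cancel, Real.exp_zero] at h2
  refine hasSum_of_eq h2 fun n => ?_
  unfold pois
  ring

lemma hasSum_pois_mul (c : ℝ) : HasSum (fun n => pois c n * n) c := by
  have h1 : HasSum (fun n : ℕ => pois c (n + 1) * ((n + 1 : ℕ) : ℝ)) c := by
    have h := (hasSum_pois c).mul_left c
    rw [mul_one] at h
    refine hasSum_of_eq h fun n => ?_
    unfold pois
    rw [Nat.factorial_succ, pow_succ]
    push_cast
    have : (n.factorial : ℝ) ≠ 0 := by positivity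
    field_simp
  have h2 := (hasSum_nat_add_iff (f := fun n : ℕ => pois c n * (n : ℝ)) 1).1 h1
  simpa using h2

lemma pois_nonneg {c : ℝ} (hc : 0 ≤ c) (n : ℕ) : 0 ≤ pois c n := by
  unfold pois
  positivity

/-- The pressure of the counterexample is at least `λ log (3/2)`. -/
lemma F_lower (lam : ℝ) (hlam : 0 < lam) (N : ℕ) (hN : 1 ≤ N) :
    lam * Real.log (3 / 2) ≤ F ferro lam N := by
  have : NeZero N := ⟨by omega⟩
  have hNpos : (0 : ℝ) < N := by exact_mod_cast hN
  set A : ℕ → ℝ := fun n => ((∑ i : Fin n → Fin 2 → Fin N, ∫ ω : Fin n → ferro.Ω,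
    ∫ h : Fin N → ℝ, logZ ferro N n ω i h
      ∂(Measure.pi fun _ => ferro.η) ∂(Measure.pi fun _ => ferro.P)) /
      (Fintype.card (Fin n → Fin 2 → Fin N) : ℝ)) with hA
  have hcard : ∀ n, (0 : ℝ) < Fintype.card (Fin n → Fin 2 → Fin N) := by
    intro n
    exact_mod_cast Fintype.card_pos
  have hlow : ∀ n : ℕ, n * Real.log (3 / 2) ≤ A n := by
    intro n
    rw [hA]
    simp only
    rw [le_div_iff₀ (hcard n)]
    calc n * Real.log (3 / 2) * (Fintype.card (Fin n → Fin 2 → Fin N) : ℝ)
        = ∑ _i : Fin n → Fin 2 → Fin N, n * Real.log (3 / 2) := by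
          rw [Finset.sum_const, Finset.card_univ, nsmul_eq_mul, mul_comm]
      _ ≤ _ := by
          apply Finset.sum_le_sum
          intro i _
          rw [int_ferro N n (fun ω h => logZ ferro N n ω i h)]
          exact logZ_lower N n _ i
  have hup : ∀ n : ℕ, A n ≤ n * Real.log (3 / 2) + N * Real.log 2 := by
    intro n
    rw [hA]
    simp only
    rw [div_le_iff₀ (hcard n)]
    calc _ ≤ ∑ _i : Fin n → Fin 2 → Fin N, (n * Real.log (3 / 2) + N * Real.log 2) := by
          apply Finset.sum_le_sum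
          intro i _
          rw [int_ferro N n (fun ω h => logZ ferro N n ω i h)]
          exact logZ_upper N n _ i
      _ = _ := by
          rw [Finset.sum_const, Finset.card_univ, nsmul_eq_mul, mul_comm]
  have hc : 0 ≤ lam * N := by positivity
  have hl : 0 < Real.log (3 / 2) := Real.log_pos (by norm_num)
  have hs1 : HasSum (fun n : ℕ => pois (lam * N) n * (n * Real.log (3 / 2)))
      (lam * N * Real.log (3 / 2)) := by
    have h := (hasSum_pois_mul (lam * N)).mul_right (Real.log (3 / 2))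
    exact hasSum_of_eq h fun n => by ring
  have hs2 : HasSum (fun n : ℕ => pois (lam * N) n * (n * Real.log (3 / 2) + N * Real.log 2))
      (lam * N * Real.log (3 / 2) + N * Real.log 2) := by
    have h := hs1.add ((hasSum_pois (lam * N)).mul_right (N * Real.log 2))
    rw [one_mul] at h
    exact hasSum_of_eq h fun n => by ring
  have hsum : Summable fun n : ℕ => pois (lam * N) n * A n := by
    refine Summable.of_nonneg_of_le (fun n => mul_nonneg (pois_nonneg hc n) ?_)
      (fun n => mul_le_mul_of_nonneg_left (hup n) (pois_nonneg hc n)) hs2.summable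
    exact le_trans (by positivity) (hlow n)
  have hle : lam * N * Real.log (3 / 2) ≤ ∑' n : ℕ, pois (lam * N) n * A n := by
    rw [← hs1.tsum_eq]
    exact hs1.summable.tsum_le_tsum
      (fun n => mul_le_mul_of_nonneg_left (hlow n) (pois_nonneg hc n)) hsum
  have hF : F ferro lam N = 1 / N * ∑' n : ℕ, pois (lam * N) n * A n := rfl
  rw [hF]
  calc lam * Real.log (3 / 2) = 1 / N * (lam * N * Real.log (3 / 2)) := by
        field_simp
    _ ≤ _ := mul_le_mul_of_nonneg_left hle (by positivity)

instance (I : Type) [Fintype I] : IsProbabilityMeasure (unif I) := by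
  unfold unif
  have : IsProbabilityMeasure ((volume : Measure ℝ).restrict (Set.Icc 0 1)) := ⟨by simp⟩
  infer_instance

lemma levels_const {I : Type} [Fintype I] (m : Fin 0 → ℝ) (c : ℝ) :
    levels m (fun _ : Fin (0 + 1) → I → ℝ => c) = Real.log c := by
  unfold levels
  simp

lemma U_zero (n : ℕ) (ω : Fin n → ferro.Ω) (l : Fin n → Fin 2) :
    U ferro n ω l 0 (fun _ => 0) = 2 := by
  have h : ∀ (ε : Spin) (k : Fin n), (∑ σ : Fin 2 → Spin,
      if σ (l k) = ε then Real.exp (ferro.θ (ω k) σ) *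
        ∏ j, (if j = l k then 1 else (1 + 0 * val (σ j)) / 2) else 0) = 1 := by
    intro ε k
    have hu : (Finset.univ : Finset Spin) = {1, -1} := by decide
    rw [← (finTwoArrowEquiv Spin).symm.sum_comp]
    simp only [exp_theta_ferro, Fintype.sum_prod_type, hu, Fin.prod_univ_two]
    rw [Finset.sum_pair (by decide), Finset.sum_pair (by decide), Finset.sum_pair (by decide)]
    have hl : l k = 0 ∨ l k = 1 := by omega
    rcases hl with hl | hl <;> rcases Int.units_eq_one_or ε with he | he <;>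
      simp [hl, he, val_one, val_neg_one, finTwoArrowEquiv] <;> norm_num
  unfold U
  simp only [h]
  simp

lemma V_zero (n : ℕ) (ω : Fin n → ferro.Ω) :
    V ferro n ω (fun _ => 0) = 1 := by
  unfold V
  apply Finset.prod_eq_one
  intro k _
  have hu : (Finset.univ : Finset Spin) = {1, -1} := by decide
  rw [← (finTwoArrowEquiv Spin).symm.sum_comp]
  simp only [exp_theta_ferro, Fintype.sum_prod_type, hu, Fin.prod_univ_two]
  rw [Finset.sum_pair (by decide), Finset.sum_pair (by decide), Finset.sum_pair (by decide)]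
  simp [val_one, val_neg_one, finTwoArrowEquiv]
  norm_num

lemma TU_zero (lam : ℝ) (m : Fin 0 → ℝ) : TU ferro lam m (fun _ => 0) = Real.log 2 := by
  have h : ∀ n : ℕ, ((∑ l : Fin n → Fin 2, ∫ ω : Fin n → ferro.Ω, ∫ h : ℝ,
      levels m (fun _ : Fin (0 + 1) → Fin n × Fin 2 → ℝ => U ferro n ω l h fun _ => 0)
      ∂ferro.η ∂(Measure.pi fun _ => ferro.P)) / (Fintype.card (Fin n → Fin 2) : ℝ)) =
      Real.log 2 := by
    intro n
    have hP : IsProbabilityMeasure ferro.P := ferro_inClass.prob
    have h2 : ∀ l : Fin n → Fin 2, ∫ ω : Fin n → ferro.Ω, ∫ h : ℝ,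
      levels m (fun _ : Fin (0 + 1) → Fin n × Fin 2 → ℝ => U ferro n ω l h fun _ => 0)
      ∂ferro.η ∂(Measure.pi fun _ => ferro.P) = Real.log 2 := by
      intro l
      have h3 : ∀ ω : Fin n → ferro.Ω, ∫ h : ℝ,
          levels m (fun _ : Fin (0 + 1) → Fin n × Fin 2 → ℝ => U ferro n ω l h fun _ => 0)
          ∂ferro.η = Real.log 2 := by
        intro ω
        have h4 : ferro.η = Measure.dirac 0 := rfl
        rw [h4, integral_dirac, U_zero, levels_const]
      simp only [h3]
      simp
    simp only [h2]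
    rw [Finset.sum_const, Finset.card_univ, nsmul_eq_mul, mul_comm, mul_div_assoc, div_self,
      mul_one]
    exact_mod_cast Fintype.card_ne_zero
  unfold TU
  simp only [h]
  rw [tsum_mul_right, (hasSum_pois _).tsum_eq, one_mul]

lemma TV_zero (lam : ℝ) (m : Fin 0 → ℝ) : TV ferro lam m (fun _ => 0) = 0 := by
  unfold TV
  simp only [V_zero, levels_const]
  simp

/-- The infimum of the trial functionals of the counterexample is at most `log 2`. -/
lemma iInf_Phi_le (lam : ℝ) : ⨅ r, Phi ferro lam r ≤ ((Real.log 2 : ℝ) : EReal) := by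
  have h : Admissible (fun i : Fin 0 => i.elim0) (fun _ : Fin (0 + 1) → ℝ => (0 : ℝ)) :=
    ⟨fun i => i.elim0, fun i => i.elim0, measurable_const, fun _ => by simp⟩
  calc ⨅ r, Phi ferro lam r ≤ Phi ferro lam 0 := iInf_le _ 0
    _ ≤ ((TU ferro lam (fun i : Fin 0 => i.elim0) (fun _ => 0) -
          TV ferro lam (fun i : Fin 0 => i.elim0) (fun _ => 0) : ℝ) : EReal) :=
        iInf_le_of_le _ (iInf_le_of_le _ (iInf_le_of_le h le_rfl))
    _ = _ := by rw [TU_zero, TV_zero, sub_zero]

/-- For the model `ferro` (`K = 2`, `a = 1`, `b = -1/2`, `f₁ = id`, `f₂ = -id`, `h = 0`), which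
satisfies every condition listed in the problem file, and `λ = 2`, the pressure satisfies
`F_N ≥ 2 log(3/2) = 0.81…` for all `N ≥ 1` while `inf_r Φ_r ≤ log 2 = 0.69…`; in particular the
Mézard–Parisi formula is false for it. -/
theorem main :
    ∃ K : ℕ, Even K ∧ 2 ≤ K ∧ ∃ (M : Model K) (lam : ℝ), M.InClass ∧ 0 < lam ∧
      (∃ c c' : ℝ, c < c' ∧ ⨅ r, Phi M lam r ≤ (c : EReal) ∧ ∀ N : ℕ, 1 ≤ N → c' ≤ F M lam N) ∧
      ¬ Tendsto (fun N : ℕ => ((F M lam N : ℝ) : EReal)) atTop (𝓝 (⨅ r, Phi M lam r)) := by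
  have hlt : Real.log 2 < 2 * Real.log (3 / 2) := by
    have : 2 * Real.log (3 / 2) = Real.log ((3 / 2) ^ 2) := by
      rw [Real.log_pow]
      norm_num
    rw [this]
    exact Real.log_lt_log (by norm_num) (by norm_num)
  have hF : ∀ N : ℕ, 1 ≤ N → 2 * Real.log (3 / 2) ≤ F ferro 2 N :=
    fun N hN => F_lower 2 (by norm_num) N hN
  refine ⟨2, even_two, le_rfl, ferro, 2, ferro_inClass, by norm_num,
    ⟨Real.log 2, 2 * Real.log (3 / 2), hlt, iInf_Phi_le 2, hF⟩, ?_⟩
  intro hT
  have h1 : ((2 * Real.log (3 / 2) : ℝ) : EReal) ≤ ⨅ r, Phi ferro 2 r := by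
    refine ge_of_tendsto hT ?_
    filter_upwards [eventually_ge_atTop 1] with N hN
    exact_mod_cast hF N hN
  have h2 := h1.trans (iInf_Phi_le 2)
  have h3 : 2 * Real.log (3 / 2) ≤ Real.log 2 := by exact_mod_cast h2
  linarith

end Vale.Agent.H16.MP
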