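import Mathlib

/-!
Erdos-Littlewood-Offord and a one-step counting lemma for symmetric sign matrices.
-/

open Finset

namespace Vale.H16.Sym

/-- sign of a Boolean -/
noncomputable def sgn (b : Bool) : ℝ := if b then 1 else -1

lemma lo_bound {J : Type*} [Fintype J] [DecidableEq J] (c : J → ℝ) (hc : ∀ j, c j ≠ 0) (t : ℝ) :
    #{x : J → Bool | ∑ j, sgn (x j) * c j = t} ≤
      (Fintype.card J).choose (Fintype.card J / 2) := by
  classical
  let T : (J → Bool) → Finset J := fun x => univ.filter (fun j => (x j = true ↔ 0 < c j))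
  have hTmem : ∀ x j, j ∈ T x ↔ (x j = true ↔ 0 < c j) := by
    intro x j; simp [T]
  have hval : ∀ x j, sgn (x j) * c j = if j ∈ T x then |c j| else -|c j| := by
    intro x j
    rcases lt_or_gt_of_ne (hc j) with h | h
    · have hn : ¬ (0 < c j) := by linarith
      cases hx : x j
      · have : j ∈ T x := by rw [hTmem]; simp [hx, hn]
        rw [if_pos this, abs_of_neg h]; simp [sgn]
      · have : j ∉ T x := by rw [hTmem]; simp [hx, hn]
        rw [if_neg this, abs_of_neg h]; simp [sgn]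
    · cases hx : x j
      · have : j ∉ T x := by rw [hTmem]; simp [hx, h]
        rw [if_neg this, abs_of_pos h]; simp [sgn]
      · have : j ∈ T x := by rw [hTmem]; simp [hx, h]
        rw [if_pos this, abs_of_pos h]; simp [sgn]
  have hinj : Function.Injective T := by
    intro x y hxy
    funext j
    have h := hTmem x j
    rw [hxy, hTmem y j] at h
    by_cases hp : 0 < c j
    · cases hx : x j <;> cases hy : y j <;> simp_all
    · cases hx : x j <;> cases hy : y j <;> simp_all
  rw [← card_image_of_injective _ hinj]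
  apply IsAntichain.sperner
  intro A hA B hB hne hsub
  simp only [coe_image, coe_filter, mem_univ, true_and, Set.mem_image, Set.mem_ofPred_eq] at hA hB
  obtain ⟨x, hx, rfl⟩ := hA
  obtain ⟨y, hy, rfl⟩ := hB
  have hss : T x ⊂ T y := lt_of_le_of_ne hsub hne
  obtain ⟨j0, hj0y, hj0x⟩ := exists_of_ssubset hss
  have hlt : ∑ j, sgn (x j) * c j < ∑ j, sgn (y j) * c j := by
    apply sum_lt_sum
    · intro j _
      rw [hval, hval]
      by_cases h1 : j ∈ T x
      · rw [if_pos h1, if_pos (hsub h1)]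
      · rw [if_neg h1]
        split_ifs
        · have := abs_nonneg (c j); linarith
        · exact le_refl _
    · refine ⟨j0, mem_univ _, ?_⟩
      rw [hval, hval, if_neg hj0x, if_pos hj0y]
      have := abs_pos.mpr (hc j0)
      linarith
  rw [hx, hy] at hlt
  exact lt_irrefl _ hlt

/-- Largest point probability of a Rademacher sum with `f` non-zero coefficients. -/
noncomputable def lo (f : ℕ) : ℝ := (f.choose (f / 2) : ℝ) / 2 ^ f

lemma lo_nonneg (f : ℕ) : 0 ≤ lo f := by unfold lo; positivity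

lemma lo_pos (f : ℕ) : 0 < lo f := by
  unfold lo
  have : 0 < f.choose (f / 2) := Nat.choose_pos (Nat.div_le_self f 2)
  positivity

lemma lo_le_one (f : ℕ) : lo f ≤ 1 := by
  unfold lo
  rw [div_le_one (by positivity)]
  have : f.choose (f / 2) ≤ 2 ^ f := Nat.choose_le_two_pow f (f / 2)
  exact_mod_cast this

/-- uniform measure of an event on `X → Bool`. -/
noncomputable def mu {X : Type*} [Fintype X] [DecidableEq X] (P : (X → Bool) → Prop) : ℝ :=
  (Nat.card {σ : X → Bool // P σ} : ℝ) / 2 ^ (Fintype.card X)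

section mu
variable {X : Type*} [Fintype X] [DecidableEq X]

lemma mu_nonneg (P : (X → Bool) → Prop) : 0 ≤ mu P := by unfold mu; positivity

lemma mu_mono {P Q : (X → Bool) → Prop} (h : ∀ σ, P σ → Q σ) : mu P ≤ mu Q := by
  unfold mu
  apply div_le_div_of_nonneg_right _ (by positivity)
  have : Nat.card {σ : X → Bool // P σ} ≤ Nat.card {σ : X → Bool // Q σ} :=
    Nat.card_le_card_of_injective (fun σ => ⟨σ.1, h σ.1 σ.2⟩)
      (fun a b hab => Subtype.ext (by simpa using hab))
  exact_mod_cast this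

lemma mu_le_one (P : (X → Bool) → Prop) : mu P ≤ 1 := by
  unfold mu
  rw [div_le_one (by positivity)]
  have : Nat.card {σ : X → Bool // P σ} ≤ Nat.card (X → Bool) :=
    Nat.card_le_card_of_injective (fun σ => σ.1) Subtype.val_injective
  rw [Nat.card_eq_fintype_card (α := X → Bool), Fintype.card_fun, Fintype.card_bool] at this
  exact_mod_cast this

lemma mu_congr {P Q : (X → Bool) → Prop} (h : ∀ σ, P σ ↔ Q σ) : mu P = mu Q := by
  have : P = Q := funext fun σ => propext (h σ)
  rw [this]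

/-- union bound over a finite set of indices -/
lemma mu_exists_le {ι : Type*} (s : Finset ι) (P : ι → (X → Bool) → Prop) :
    mu (fun σ => ∃ i ∈ s, P i σ) ≤ ∑ i ∈ s, mu (P i) := by
  classical
  unfold mu
  rw [← sum_div]
  apply div_le_div_of_nonneg_right _ (by positivity)
  have h1 : Nat.card {σ : X → Bool // ∃ i ∈ s, P i σ} =
      #{σ : X → Bool | ∃ i ∈ s, P i σ} := by
    rw [Nat.card_eq_fintype_card, Fintype.card_subtype]
  have h2 : ∀ i, Nat.card {σ : X → Bool // P i σ} = #{σ : X → Bool | P i σ} := by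
    intro i; rw [Nat.card_eq_fintype_card, Fintype.card_subtype]
  rw [h1]
  simp_rw [h2]
  have h3 : (univ.filter fun σ : X → Bool => ∃ i ∈ s, P i σ) ⊆
      s.biUnion (fun i => univ.filter fun σ : X → Bool => P i σ) := by
    intro σ hσ
    simp only [mem_filter, mem_univ, true_and] at hσ
    obtain ⟨i, hi, hP⟩ := hσ
    simp only [mem_biUnion, mem_filter, mem_univ, true_and]
    exact ⟨i, hi, hP⟩
  have h4 := (card_le_card h3).trans card_biUnion_le
  exact_mod_cast h4

lemma mu_or_le (P Q : (X → Bool) → Prop) : mu (fun σ => P σ ∨ Q σ) ≤ mu P + mu Q := by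
  classical
  have h := mu_exists_le (univ : Finset Bool) (fun b => if b then P else Q)
  rw [Fintype.sum_bool] at h
  refine le_trans (le_of_eq ?_) (h.trans (le_of_eq ?_))
  · apply mu_congr; intro σ
    constructor
    · rintro (h | h)
      · exact ⟨true, mem_univ _, by simpa using h⟩
      · exact ⟨false, mem_univ _, by simpa using h⟩
    · rintro ⟨b, _, hb⟩
      cases b
      · right; simpa using hb
      · left; simpa using hb
  · simp

/-- replace the coordinates in `R` -/
def upd (R : Finset X) (σ : X → Bool) (ρ : X → Bool) : X → Bool :=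
  fun x => if x ∈ R then ρ x else σ x

/-- One-step counting lemma. `P₂` does not depend on the coordinates in `R`; for every `σ`
the number of ways of filling the coordinates in `R` so that `P₁` holds is at most `M`. -/
lemma mu_step (R : Finset X) (P₁ P₂ : (X → Bool) → Prop) (M : ℕ)
    (h2 : ∀ σ ρ, P₂ σ → P₂ (upd R σ ρ))
    (h1 : ∀ σ, P₂ σ → Nat.card {ρ : R → Bool // P₁ (fun x => if h : x ∈ R then ρ ⟨x, h⟩ else σ x)} ≤ M) :
    mu (fun σ => P₁ σ ∧ P₂ σ) ≤ (M : ℝ) / 2 ^ (#R) * mu P₂ := by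
  classical
  let e := Equiv.piEquivPiSubtypeProd (fun x => x ∈ R) (fun _ : X => Bool)
  -- gluing
  let g : (R → Bool) → ({x // x ∉ R} → Bool) → (X → Bool) :=
    fun ρ τ x => if h : x ∈ R then ρ ⟨x, h⟩ else τ ⟨x, h⟩
  have hg : ∀ ρ τ, e.symm (ρ, τ) = g ρ τ := by
    intro ρ τ; funext x; simp [e, g, Equiv.piEquivPiSubtypeProd]
  have hP2 : ∀ ρ ρ' τ, P₂ (g ρ τ) → P₂ (g ρ' τ) := by
    intro ρ ρ' τ h
    have := h2 (g ρ τ) (g ρ' τ) h
    have he : upd R (g ρ τ) (g ρ' τ) = g ρ' τ := by
      funext x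
      simp only [upd, g]
      split_ifs <;> rfl
    rwa [he] at this
  let ρ0 : R → Bool := fun _ => false
  let Q : ({x // x ∉ R} → Bool) → Prop := fun τ => P₂ (g ρ0 τ)
  have hQ : ∀ ρ τ, P₂ (g ρ τ) ↔ Q τ := fun ρ τ => ⟨hP2 _ _ _, hP2 _ _ _⟩
  -- count of P₂
  have hc2 : Nat.card {σ : X → Bool // P₂ σ} =
      2 ^ (#R) * Nat.card {τ : {x // x ∉ R} → Bool // Q τ} := by
    have e1 : {σ : X → Bool // P₂ σ} ≃ (R → Bool) × {τ : {x // x ∉ R} → Bool // Q τ} :=
      { toFun := fun σ => ((e σ.1).1, ⟨(e σ.1).2, by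
          have := σ.2
          rw [← e.symm_apply_apply σ.1, show e σ.1 = ((e σ.1).1, (e σ.1).2) from rfl, hg, hQ] at this
          exact this⟩)
        invFun := fun p => ⟨e.symm (p.1, p.2.1), by rw [hg, hQ]; exact p.2.2⟩
        left_inv := fun σ => by
          apply Subtype.ext
          simp
        right_inv := fun p => by
          obtain ⟨ρ, τ, hτ⟩ := p
          simp }
    rw [Nat.card_congr e1, Nat.card_prod]
    congr 1
    rw [Nat.card_eq_fintype_card, Fintype.card_fun, Fintype.card_bool, Fintype.card_coe]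
  have hc1 : Nat.card {σ : X → Bool // P₁ σ ∧ P₂ σ} ≤
      M * Nat.card {τ : {x // x ∉ R} → Bool // Q τ} := by
    have e1 : {σ : X → Bool // P₁ σ ∧ P₂ σ} ≃
        Σ τ : {τ : {x // x ∉ R} → Bool // Q τ}, {ρ : R → Bool // P₁ (g ρ τ.1)} :=
      { toFun := fun σ => ⟨⟨(e σ.1).2, by
          have := σ.2.2
          rw [← e.symm_apply_apply σ.1, show e σ.1 = ((e σ.1).1, (e σ.1).2) from rfl, hg, hQ] at this
          exact this⟩, ⟨(e σ.1).1, by
          have := σ.2.1
          rw [← e.symm_apply_apply σ.1, show e σ.1 = ((e σ.1).1, (e σ.1).2) from rfl, hg] at this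
          exact this⟩⟩
        invFun := fun p => ⟨e.symm (p.2.1, p.1.1), by
          rw [hg, hQ]; exact ⟨p.2.2, p.1.2⟩⟩
        left_inv := fun σ => by
          apply Subtype.ext
          simp
        right_inv := fun p => by
          obtain ⟨⟨τ, hτ⟩, ⟨ρ, hρ⟩⟩ := p
          have key : ∀ q : (R → Bool) × ({x // x ∉ R} → Bool),
              ∀ hq : P₁ (g q.1 q.2) ∧ Q q.2, q = (ρ, τ) →
              (⟨⟨q.2, hq.2⟩, ⟨q.1, hq.1⟩⟩ : Σ τ : {τ : {x // x ∉ R} → Bool // Q τ},
                {ρ : R → Bool // P₁ (g ρ τ.1)}) = ⟨⟨τ, hτ⟩, ⟨ρ, hρ⟩⟩ := by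
            rintro _ _ rfl; rfl
          have h := e.apply_symm_apply (ρ, τ)
          exact key (e (e.symm (ρ, τ))) (by rw [h]; exact ⟨hρ, hτ⟩) h }
    rw [Nat.card_congr e1, Nat.card_sigma]
    have hb : ∀ τ : {τ : {x // x ∉ R} → Bool // Q τ}, Nat.card {ρ : R → Bool // P₁ (g ρ τ.1)} ≤ M := by
      intro τ
      have := h1 (g ρ0 τ.1) τ.2
      refine le_trans (le_of_eq ?_) this
      congr 1
      apply congrArg
      funext ρ
      apply congrArg
      funext x
      simp only [g]
      split_ifs <;> rfl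
    refine le_trans (sum_le_sum fun τ _ => hb τ) ?_
    rw [sum_const, smul_eq_mul, card_univ, Nat.card_eq_fintype_card, mul_comm]
  unfold mu
  rw [hc2]
  rw [div_mul_div_comm, div_le_div_iff₀ (by positivity) (by positivity)]
  push_cast
  have hc1' : (Nat.card {σ : X → Bool // P₁ σ ∧ P₂ σ} : ℝ) ≤
      M * Nat.card {τ : {x // x ∉ R} → Bool // Q τ} := by exact_mod_cast hc1
  have : (0:ℝ) < 2 ^ (#R) * 2 ^ (Fintype.card X) := by positivity
  calc (Nat.card {σ : X → Bool // P₁ σ ∧ P₂ σ} : ℝ) * (2 ^ (#R) * 2 ^ (Fintype.card X))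
      ≤ (M * Nat.card {τ : {x // x ∉ R} → Bool // Q τ}) * (2 ^ (#R) * 2 ^ (Fintype.card X)) :=
        mul_le_mul_of_nonneg_right hc1' this.le
    _ = _ := by ring

end mu

end Vale.H16.Sym
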