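import Vale.Agent.H16.SymA

/-!
Counting lemma for rows of a symmetric sign matrix.
-/

open Finset

namespace Vale.H16.Sym

variable {n : ℕ}

/-- entry of the symmetric sign matrix coded by `σ`. -/
noncomputable def ent (σ : Sym2 (Fin n) → Bool) (i j : Fin n) : ℝ := sgn (σ s(i, j))

lemma s_inj (i : Fin n) : Function.Injective (fun j : Fin n => s(i, j)) := by
  intro a b h
  exact Sym2.congr_right.mp h

lemma s_eq_cases {i j i' j' : Fin n} (h : s(i, j) = s(i', j')) :
    (i = i' ∧ j = j') ∨ (i = j' ∧ j = i') := by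
  rcases Sym2.eq_iff.mp h with h | h
  · exact Or.inl h
  · exact Or.inr h

lemma row_step (i : Fin n) (J : Finset (Fin n))
    (v : (Sym2 (Fin n) → Bool) → Fin n → ℝ) (P₂ : (Sym2 (Fin n) → Bool) → Prop)
    (hv : ∀ σ σ', (∀ x, x ∉ J.image (fun j => s(i, j)) → σ x = σ' x) → v σ = v σ')
    (hP : ∀ σ σ', (∀ x, x ∉ J.image (fun j => s(i, j)) → σ x = σ' x) → P₂ σ → P₂ σ')
    (hne : ∀ σ, P₂ σ → ∀ j ∈ J, v σ j ≠ 0) :
    mu (fun σ => (∑ j, ent σ i j * v σ j = 0) ∧ P₂ σ) ≤ lo (#J) * mu P₂ := by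
  classical
  set R := J.image (fun j => s(i, j)) with hR
  have hcard : #R = #J := card_image_of_injective _ (s_inj i)
  have hmem : ∀ j, s(i, j) ∈ R ↔ j ∈ J := by
    intro j
    rw [hR, mem_image]
    constructor
    · rintro ⟨j', hj', h⟩
      have := s_inj i h
      rwa [← this]
    · intro h; exact ⟨j, h, rfl⟩
  have h := mu_step R (fun σ => ∑ j, ent σ i j * v σ j = 0) P₂ ((#J).choose (#J / 2)) ?_ ?_
  · refine h.trans (le_of_eq ?_)
    rw [hcard]; rfl
  · intro σ ρ hσ
    apply hP σ _ _ hσ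
    intro x hx
    simp [upd, hx]
  · intro σ hσ
    -- v is constant
    have hvc : ∀ ρ : R → Bool, v (fun x => if h : x ∈ R then ρ ⟨x, h⟩ else σ x) = v σ := by
      intro ρ
      apply hv
      intro x hx
      simp [hx]
    set c : ℝ := ∑ j ∈ univ.filter (fun j => j ∉ J), sgn (σ s(i, j)) * v σ j with hc
    have hlo := lo_bound (J := J) (fun j => v σ j.1) (fun j => hne σ hσ j.1 j.2) (-c)
    rw [Fintype.card_coe] at hlo
    refine le_trans ?_ hlo
    rw [← Fintype.card_subtype, ← Nat.card_eq_fintype_card]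
    refine Nat.card_le_card_of_injective (fun ρ => ⟨fun j => ρ.1 ⟨s(i, j.1), (hmem j.1).mpr j.2⟩, ?_⟩) ?_
    · obtain ⟨ρ, hρ⟩ := ρ
      simp only at hρ ⊢
      rw [hvc ρ] at hρ
      have hsplit : ∑ j, ent (fun x => if h : x ∈ R then ρ ⟨x, h⟩ else σ x) i j * v σ j =
          ∑ j ∈ univ.filter (fun j => j ∈ J), ent (fun x => if h : x ∈ R then ρ ⟨x, h⟩ else σ x) i j * v σ j
          + ∑ j ∈ univ.filter (fun j => j ∉ J), ent (fun x => if h : x ∈ R then ρ ⟨x, h⟩ else σ x) i j * v σ j :=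
        (sum_filter_add_sum_filter_not univ (fun j => j ∈ J) _).symm
      rw [hsplit] at hρ
      have h2 : ∑ j ∈ univ.filter (fun j => j ∉ J), ent (fun x => if h : x ∈ R then ρ ⟨x, h⟩ else σ x) i j * v σ j = c := by
        rw [hc]
        apply sum_congr rfl
        intro j hj
        rw [mem_filter] at hj
        have : s(i, j) ∉ R := fun h => hj.2 ((hmem j).mp h)
        simp [ent, this]
      have h1 : ∑ j ∈ univ.filter (fun j => j ∈ J), ent (fun x => if h : x ∈ R then ρ ⟨x, h⟩ else σ x) i j * v σ j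
          = ∑ j : J, sgn (ρ ⟨s(i, j.1), (hmem j.1).mpr j.2⟩) * v σ j.1 := by
        have : (univ.filter (fun j => j ∈ J)) = J := by ext; simp
        rw [this, ← sum_coe_sort J]
        apply sum_congr rfl
        intro j _
        have hj : s(i, j.1) ∈ R := (hmem j.1).mpr j.2
        simp [ent, hj]
      rw [h1, h2] at hρ
      linarith
    · intro a b hab
      apply Subtype.ext
      funext x
      obtain ⟨x, hx⟩ := x
      have hx' := hx
      rw [hR, mem_image] at hx'
      obtain ⟨j, hj, rfl⟩ := hx'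
      have := congrFun (congrArg Subtype.val hab) ⟨j, hj⟩
      exact this

/-- The joint counting lemma. `v σ` has support exactly `S`, and together with `B` it only
depends on the entries with row in `D` and column in `S`. -/
lemma main_count (S D : Finset (Fin n))
    (v : (Sym2 (Fin n) → Bool) → Fin n → ℝ) (B : (Sym2 (Fin n) → Bool) → Prop)
    (hv : ∀ σ σ', (∀ d ∈ D, ∀ j ∈ S, σ s(d, j) = σ' s(d, j)) → v σ = v σ')
    (hB : ∀ σ σ', (∀ d ∈ D, ∀ j ∈ S, σ s(d, j) = σ' s(d, j)) → B σ → B σ')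
    (hsupp : ∀ σ, B σ → ∀ j, v σ j ≠ 0 ↔ j ∈ S) :
    mu (fun σ => (∀ i, i ∉ D → ∑ j, ent σ i j * v σ j = 0) ∧ B σ) ≤
      lo (#S) ^ (#(S ∪ D)ᶜ) * ∏ t ∈ range (#(S \ D)), lo (t + 1) := by
  classical
  let P : Finset (Fin n) → (Sym2 (Fin n) → Bool) → Prop :=
    fun W σ => (∀ i ∈ W, ∑ j, ent σ i j * v σ j = 0) ∧ B σ
  -- invariance of rows
  have hrow : ∀ (W : Finset (Fin n)) (i : Fin n) (J : Finset (Fin n)), J ⊆ S →
      (∀ d ∈ D, ∀ j ∈ S, ∀ r ∈ J, s(d, j) ≠ s(i, r)) →
      (∀ i' ∈ W, ∀ j ∈ S, ∀ r ∈ J, s(i', j) ≠ s(i, r)) →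
      mu (P (insert i W)) ≤ lo (#J) * mu (P W) := by
    intro W i J hJS hD hW
    have hag : ∀ σ σ' : Sym2 (Fin n) → Bool, (∀ x, x ∉ J.image (fun j => s(i, j)) → σ x = σ' x) →
        ∀ d ∈ D, ∀ j ∈ S, σ s(d, j) = σ' s(d, j) := by
      intro σ σ' h d hd j hj
      apply h
      intro hmem
      rw [mem_image] at hmem
      obtain ⟨r, hr, he⟩ := hmem
      exact hD d hd j hj r hr he.symm
    have := row_step i J v (P W) (fun σ σ' h => hv σ σ' (hag σ σ' h)) ?_ ?_
    · refine le_trans (mu_mono ?_) this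
      intro σ hσ
      exact ⟨hσ.1 i (mem_insert_self _ _), fun i' hi' => hσ.1 i' (mem_insert_of_mem hi'), hσ.2⟩
    · intro σ σ' h hσ
      refine ⟨?_, hB σ σ' (hag σ σ' h) hσ.2⟩
      intro i' hi'
      rw [← hv σ σ' (hag σ σ' h), ← hσ.1 i' hi']
      apply sum_congr rfl
      intro j _
      by_cases hj : j ∈ S
      · have : σ s(i', j) = σ' s(i', j) := by
          apply h
          intro hmem
          rw [mem_image] at hmem
          obtain ⟨r, hr, he⟩ := hmem
          exact hW i' hi' j hj r hr he.symm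
        simp [ent, this]
      · have : v σ j = 0 := by
          by_contra h0
          exact hj ((hsupp σ hσ.2 j).mp h0)
        simp [this]
    · intro σ hσ j hj
      exact (hsupp σ hσ.2 j).mpr (hJS hj)
  -- outside rows
  have hO : ∀ (V : Finset (Fin n)), V ⊆ (S ∪ D)ᶜ → ∀ W : Finset (Fin n), Disjoint W V →
      mu (P (W ∪ V)) ≤ lo (#S) ^ (#V) * mu (P W) := by
    intro V
    induction V using Finset.induction_on with
    | empty => intro _ W _; simp
    | insert i V hi ih =>
      intro hV W hWV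
      have hiO : i ∈ (S ∪ D)ᶜ := hV (mem_insert_self _ _)
      rw [mem_compl, mem_union, not_or] at hiO
      rw [disjoint_insert_right] at hWV
      have h1 := ih (fun x hx => hV (mem_insert_of_mem hx)) W hWV.2
      have h2 := hrow (W ∪ V) i S (Subset.refl S) ?_ ?_
      · have he : W ∪ insert i V = insert i (W ∪ V) := by
          ext x; simp only [mem_union, mem_insert]; tauto
        rw [he, card_insert_of_notMem hi, pow_succ']
        calc mu (P (insert i (W ∪ V))) ≤ lo (#S) * mu (P (W ∪ V)) := h2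
          _ ≤ lo (#S) * (lo (#S) ^ (#V) * mu (P W)) :=
              mul_le_mul_of_nonneg_left h1 (lo_nonneg _)
          _ = _ := by ring
      · intro d hd j hj r hr he
        rcases s_eq_cases he with ⟨rfl, _⟩ | ⟨_, rfl⟩
        · exact hiO.2 hd
        · exact hiO.1 hj
      · intro i' hi' j hj r hr he
        rcases s_eq_cases he with ⟨rfl, _⟩ | ⟨_, rfl⟩
        · rw [mem_union] at hi'
          rcases hi' with h | h
          · exact hWV.1 h
          · exact hi h
        · exact hiO.1 hj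
  -- rows in S \ D
  have hU : ∀ (V : Finset (Fin n)), V ⊆ S \ D → ∀ W : Finset (Fin n), Disjoint W V →
      mu (P (W ∪ V)) ≤ (∏ t ∈ range (#V), lo (t + 1)) * mu (P W) := by
    intro V
    induction V using Finset.induction_on with
    | empty => intro _ W _; simp
    | insert i V hi ih =>
      intro hV W hWV
      have hiU : i ∈ S \ D := hV (mem_insert_self _ _)
      rw [mem_sdiff] at hiU
      rw [disjoint_insert_right] at hWV
      have hVU : ∀ r ∈ insert i V, r ∈ S ∧ r ∉ D := by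
        intro r hr; exact mem_sdiff.mp (hV hr)
      have h1 := ih (fun x hx => hV (mem_insert_of_mem hx)) (insert i W) (by
        rw [disjoint_insert_left]; exact ⟨hi, hWV.2⟩)
      have h2 := hrow W i (insert i V) (fun r hr => (hVU r hr).1) ?_ ?_
      · have he : W ∪ insert i V = (insert i W) ∪ V := by
          ext x; simp only [mem_union, mem_insert]; tauto
        rw [he, card_insert_of_notMem hi, prod_range_succ]
        rw [card_insert_of_notMem hi] at h2
        have hp : 0 ≤ ∏ t ∈ range (#V), lo (t + 1) := prod_nonneg fun _ _ => lo_nonneg _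
        calc mu (P (insert i W ∪ V)) ≤ (∏ t ∈ range (#V), lo (t + 1)) * mu (P (insert i W)) := h1
          _ ≤ (∏ t ∈ range (#V), lo (t + 1)) * (lo (#V + 1) * mu (P W)) :=
              mul_le_mul_of_nonneg_left h2 hp
          _ = _ := by ring
      · intro d hd j hj r hr he
        rcases s_eq_cases he with ⟨rfl, _⟩ | ⟨rfl, _⟩
        · exact hiU.2 hd
        · exact (hVU _ hr).2 hd
      · intro i' hi' j hj r hr he
        rcases s_eq_cases he with ⟨rfl, _⟩ | ⟨rfl, _⟩
        · exact hWV.1 hi'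
        · rw [mem_insert] at hr
          rcases hr with h | h
          · rw [h] at hi'; exact hWV.1 hi'
          · exact (disjoint_left.mp hWV.2) hi' h
  -- assemble
  have hdis : Disjoint ((S ∪ D)ᶜ) (S \ D) := by
    rw [disjoint_left]
    intro x hx hx'
    rw [mem_compl, mem_union, not_or] at hx
    exact hx.1 (mem_sdiff.mp hx').1
  have hA := hU (S \ D) (Subset.refl _) ((S ∪ D)ᶜ) hdis
  have hBB := hO ((S ∪ D)ᶜ) (Subset.refl _) ∅ (disjoint_empty_left _)
  rw [empty_union] at hBB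
  have hp : 0 ≤ ∏ t ∈ range (#(S \ D)), lo (t + 1) := prod_nonneg fun _ _ => lo_nonneg _
  calc mu (fun σ => (∀ i, i ∉ D → ∑ j, ent σ i j * v σ j = 0) ∧ B σ)
      ≤ mu (P ((S ∪ D)ᶜ ∪ (S \ D))) := by
        apply mu_mono
        intro σ hσ
        refine ⟨?_, hσ.2⟩
        intro i hi
        apply hσ.1
        rw [mem_union, mem_compl, mem_union, mem_sdiff] at hi
        tauto
    _ ≤ (∏ t ∈ range (#(S \ D)), lo (t + 1)) * mu (P ((S ∪ D)ᶜ)) := hA
    _ ≤ (∏ t ∈ range (#(S \ D)), lo (t + 1)) * (lo (#S) ^ (#(S ∪ D)ᶜ) * mu (P ∅)) :=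
        mul_le_mul_of_nonneg_left hBB hp
    _ ≤ (∏ t ∈ range (#(S \ D)), lo (t + 1)) * (lo (#S) ^ (#(S ∪ D)ᶜ) * 1) := by
        apply mul_le_mul_of_nonneg_left _ hp
        exact mul_le_mul_of_nonneg_left (mu_le_one _) (pow_nonneg (lo_nonneg _) _)
    _ = _ := by ring

end Vale.H16.Sym
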