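import Vale.Agent.H16.SymB

/-!
Reduction of the sparse kernel event to a union bound.
-/

open Finset

namespace Vale.H16.Sym

variable {n : ℕ}

lemma ent_ne_zero (σ : Sym2 (Fin n) → Bool) (i j : Fin n) : ent σ i j ≠ 0 := by
  unfold ent sgn; split_ifs <;> norm_num

lemma ent_eq (σ : Sym2 (Fin n) → Bool) (i j : Fin n) : ent σ i j = 1 ∨ ent σ i j = -1 := by
  unfold ent sgn; split_ifs <;> simp

/-- `w` is in the kernel. -/
def InKer (A : Fin n → Fin n → ℝ) (w : Fin n → ℝ) : Prop := ∀ i, ∑ j, A i j * w j = 0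

/-- choice of determining rows -/
lemma exists_rows (A : Fin n → Fin n → ℝ) (w : Fin n → ℝ) (hw : w ≠ 0) (hA : InKer A w)
    (hmin : ∀ x, InKer A x → x ≠ 0 → #{j | w j ≠ 0} ≤ #{j | x j ≠ 0}) :
    ∃ D : Finset (Fin n), #D + 1 = #{j | w j ≠ 0} ∧
      ∀ x : Fin n → ℝ, (∀ j, w j = 0 → x j = 0) → (∀ d ∈ D, ∑ j, A d j * x j = 0) →
        ∃ c : ℝ, x = c • w := by
  classical
  set S : Finset (Fin n) := univ.filter (fun j => w j ≠ 0) with hS
  have hSmem : ∀ j, j ∈ S ↔ w j ≠ 0 := by intro j; simp [hS]
  obtain ⟨j0, hj0⟩ : ∃ j, w j ≠ 0 := by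
    by_contra h
    push Not at h
    exact hw (funext h)
  have hj0S : j0 ∈ S := (hSmem j0).mpr hj0
  let r : Fin n → (S → ℝ) := fun i j => A i j.1
  obtain ⟨κ, a, ha, hsp, hli⟩ := exists_linearIndependent' ℝ r
  have : Finite κ := Finite.of_injective a ha
  let _ : Fintype κ := Fintype.ofFinite κ
  let φ : Module.Dual ℝ (S → ℝ) := ∑ j : S, w j.1 • LinearMap.proj j
  have hφ : ∀ y : S → ℝ, φ y = ∑ j : S, w j.1 * y j := by
    intro y; simp [φ, LinearMap.sum_apply]
  have hφ0 : φ ≠ 0 := by
    intro h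
    have h1 := hφ (Pi.single ⟨j0, hj0S⟩ 1)
    rw [h] at h1
    simp [Pi.single_apply] at h1
    exact hj0 h1.symm
  have hker := Module.Dual.finrank_ker_add_one_of_ne_zero hφ0
  rw [Module.finrank_fintype_fun_eq_card, Fintype.card_coe] at hker
  have hsum : ∀ (i : Fin n) (x : Fin n → ℝ), (∀ j, w j = 0 → x j = 0) →
      ∑ j, A i j * x j = ∑ j : S, A i j.1 * x j.1 := by
    intro i x hx
    rw [sum_coe_sort S (fun j => A i j * x j)]
    symm
    apply sum_subset (subset_univ S)
    intro j _ hj
    rw [hSmem, not_not] at hj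
    rw [hx j hj, mul_zero]
  have hcard : Fintype.card κ + 1 ≤ #S := by
    rw [← hker, ← finrank_span_eq_card hli]
    apply Nat.succ_le_succ
    apply Submodule.finrank_mono
    rw [Submodule.span_le]
    rintro _ ⟨k, rfl⟩
    simp only [SetLike.mem_coe, LinearMap.mem_ker, Function.comp]
    rw [hφ]
    have := hA (a k)
    rw [hsum (a k) w (fun j h => h)] at this
    rw [← this]
    apply sum_congr rfl
    intro j _
    simp only [r]; ring
  -- rows generate the kernel condition
  have hgen : ∀ x : Fin n → ℝ, (∀ j, w j = 0 → x j = 0) → (∀ k, ∑ j, A (a k) j * x j = 0) →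
      ∃ c : ℝ, x = c • w := by
    intro x hx hk
    have hxA : InKer A x := by
      intro i
      let ψ : Module.Dual ℝ (S → ℝ) := ∑ j : S, x j.1 • LinearMap.proj j
      have hψ : ∀ y : S → ℝ, ψ y = ∑ j : S, x j.1 * y j := by
        intro y; simp [ψ, LinearMap.sum_apply]
      have hle : Submodule.span ℝ (Set.range r) ≤ LinearMap.ker ψ := by
        rw [← hsp, Submodule.span_le]
        rintro _ ⟨k, rfl⟩
        simp only [SetLike.mem_coe, LinearMap.mem_ker, Function.comp]
        rw [hψ]
        have := hk k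
        rw [hsum (a k) x hx] at this
        rw [← this]
        apply sum_congr rfl
        intro j _
        simp only [r]; ring
      have hmem : r i ∈ LinearMap.ker ψ := hle (Submodule.subset_span ⟨i, rfl⟩)
      rw [LinearMap.mem_ker, hψ] at hmem
      rw [hsum i x hx, ← hmem]
      apply sum_congr rfl
      intro j _
      simp only [r]; ring
    refine ⟨x j0 / w j0, ?_⟩
    by_contra hne
    have hy : InKer A (x - (x j0 / w j0) • w) := by
      intro i
      have : ∑ j, A i j * (x - (x j0 / w j0) • w) j =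
          ∑ j, A i j * x j - (x j0 / w j0) * ∑ j, A i j * w j := by
        rw [mul_sum, ← sum_sub_distrib]
        apply sum_congr rfl
        intro j _
        simp only [Pi.sub_apply, Pi.smul_apply, smul_eq_mul]; ring
      rw [this, hxA i, hA i]; ring
    have hy0 : x - (x j0 / w j0) • w ≠ 0 := fun h => hne (sub_eq_zero.mp h)
    have h1 := hmin _ hy hy0
    have h2 : #{j | (x - (x j0 / w j0) • w) j ≠ 0} < #{j | w j ≠ 0} := by
      apply card_lt_card
      rw [Finset.ssubset_iff_of_subset]
      · refine ⟨j0, by simpa using hj0, ?_⟩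
        simp only [mem_filter, mem_univ, true_and, not_not, Pi.sub_apply, Pi.smul_apply, smul_eq_mul]
        field_simp
        ring
      · intro j hj
        simp only [mem_filter, mem_univ, true_and] at hj ⊢
        intro hwj
        apply hj
        simp [hx j hwj, hwj]
    exact absurd h1 (not_le.mpr h2)
  -- enlarge
  let D0 : Finset (Fin n) := univ.image a
  have hD0 : #D0 = Fintype.card κ := by
    rw [card_image_of_injective _ ha, card_univ]
  have hSn : #S ≤ Fintype.card (Fin n) := card_le_univ S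
  obtain ⟨D, hD0D, hDc⟩ := exists_superset_card_eq (s := D0) (n := #S - 1) (by omega) (by omega)
  refine ⟨D, by omega, ?_⟩
  intro x hx hD
  apply hgen x hx
  intro k
  exact hD _ (hD0D (mem_image_of_mem a (mem_univ k)))

/-- minimal-support kernel vector -/
lemma exists_min_ker (A : Fin n → Fin n → ℝ) (w : Fin n → ℝ) (hw : w ≠ 0) (hA : InKer A w) :
    ∃ u : Fin n → ℝ, u ≠ 0 ∧ InKer A u ∧ #{j | u j ≠ 0} ≤ #{j | w j ≠ 0} ∧
      ∀ x, InKer A x → x ≠ 0 → #{j | u j ≠ 0} ≤ #{j | x j ≠ 0} := by
  classical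
  let T : Set ℕ := {k | ∃ x : Fin n → ℝ, x ≠ 0 ∧ InKer A x ∧ #{j | x j ≠ 0} = k}
  have hT : T.Nonempty := ⟨_, w, hw, hA, rfl⟩
  obtain ⟨u, hu0, huA, huk⟩ := Nat.sInf_mem hT
  refine ⟨u, hu0, huA, ?_, ?_⟩
  · rw [huk]; exact Nat.sInf_le ⟨w, hw, hA, rfl⟩
  · intro x hxA hx0
    rw [huk]; exact Nat.sInf_le ⟨x, hx0, hxA, rfl⟩

/-- the predicate: `x` has support exactly `S` and is orthogonal to the rows in `D`. -/
def Q (S D : Finset (Fin n)) (σ : Sym2 (Fin n) → Bool) (x : Fin n → ℝ) : Prop :=
  (∀ j, x j ≠ 0 ↔ j ∈ S) ∧ ∀ d ∈ D, ∑ j, ent σ d j * x j = 0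

lemma Q_congr (S D : Finset (Fin n)) (σ σ' : Sym2 (Fin n) → Bool)
    (h : ∀ d ∈ D, ∀ j ∈ S, σ s(d, j) = σ' s(d, j)) : Q S D σ = Q S D σ' := by
  funext x
  apply propext
  have : ∀ (σ σ' : Sym2 (Fin n) → Bool), (∀ d ∈ D, ∀ j ∈ S, σ s(d, j) = σ' s(d, j)) →
      Q S D σ x → Q S D σ' x := by
    intro σ σ' h hQ
    refine ⟨hQ.1, ?_⟩
    intro d hd
    rw [← hQ.2 d hd]
    apply sum_congr rfl
    intro j _
    by_cases hj : j ∈ S
    · simp [ent, h d hd j hj]
    · have : x j = 0 := by
        by_contra h0; exact hj ((hQ.1 j).mp h0)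
      simp [this]
  exact ⟨this σ σ' h, this σ' σ (fun d hd j hj => (h d hd j hj).symm)⟩

open Classical in
/-- pick an element satisfying a predicate, `0` if there is none -/
noncomputable def pick (P : (Fin n → ℝ) → Prop) : Fin n → ℝ :=
  if h : ∃ x, P x then h.choose else 0

/-- the determined vector -/
noncomputable def vec (S D : Finset (Fin n)) (σ : Sym2 (Fin n) → Bool) : Fin n → ℝ :=
  pick (Q S D σ)

lemma vec_spec (S D : Finset (Fin n)) (σ : Sym2 (Fin n) → Bool) (h : ∃ x, Q S D σ x) :
    Q S D σ (vec S D σ) := by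
  unfold vec pick
  rw [dif_pos h]
  exact h.choose_spec

lemma vec_congr (S D : Finset (Fin n)) (σ σ' : Sym2 (Fin n) → Bool)
    (h : ∀ d ∈ D, ∀ j ∈ S, σ s(d, j) = σ' s(d, j)) : vec S D σ = vec S D σ' :=
  congrArg pick (Q_congr S D σ σ' h)

/-- the event attached to `(S, D)` -/
def Ev (S D : Finset (Fin n)) (σ : Sym2 (Fin n) → Bool) : Prop :=
  (∀ i, i ∉ D → ∑ j, ent σ i j * vec S D σ j = 0) ∧ ∃ x, Q S D σ x

lemma mu_Ev_le (S D : Finset (Fin n)) :
    mu (Ev S D) ≤ lo (#S) ^ (#(S ∪ D)ᶜ) * ∏ t ∈ range (#(S \ D)), lo (t + 1) := by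
  apply main_count S D (vec S D) (fun σ => ∃ x, Q S D σ x)
  · exact fun σ σ' h => vec_congr S D σ σ' h
  · rintro σ σ' h ⟨x, hx⟩
    exact ⟨x, by rwa [← Q_congr S D σ σ' h]⟩
  · intro σ h j
    exact (vec_spec S D σ h).1 j

/-- the pair event -/
def Fp (p q : Fin n) (σ : Sym2 (Fin n) → Bool) : Prop :=
  ∀ i, ent σ i p = (if p < q then 1 else -1) * ent σ i q

lemma lo_one : lo 1 = 1 / 2 := by unfold lo; norm_num
lemma lo_two : lo 2 = 1 / 2 := by unfold lo; norm_num [Nat.choose]

/-- fixed vector bound -/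
lemma mu_fixed_le (v : Fin n → ℝ) :
    mu (fun σ : Sym2 (Fin n) → Bool => InKer (ent σ) v) ≤
      lo (#{j | v j ≠ 0}) ^ (n - #{j | v j ≠ 0}) *
        ∏ t ∈ range (#{j | v j ≠ 0}), lo (t + 1) := by
  classical
  have h := main_count (n := n) (univ.filter fun j => v j ≠ 0) ∅ (fun _ => v) (fun _ => True)
    (fun _ _ _ => rfl) (fun _ _ _ _ => trivial) (fun _ _ j => by simp)
  rw [union_empty, sdiff_empty, card_compl, Fintype.card_fin] at h
  refine le_trans (mu_mono ?_) h
  intro σ hσ
  exact ⟨fun i _ => hσ i, trivial⟩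

lemma mu_Fp_le (p q : Fin n) (hpq : p ≠ q) : mu (Fp (n := n) p q) ≤ 1 / 2 ^ n := by
  classical
  set c : ℝ := if p < q then 1 else -1 with hc
  have hc0 : c ≠ 0 := by rw [hc]; split_ifs <;> norm_num
  let v : Fin n → ℝ := fun j => if j = p then 1 else if j = q then -c else 0
  have hv : (univ.filter fun j => v j ≠ 0) = {p, q} := by
    ext j
    simp only [mem_filter, mem_univ, true_and, v, mem_insert, mem_singleton]
    by_cases h1 : j = p
    · simp [h1]
    · by_cases h2 : j = q
      · subst h2; simp [h1, hc0]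
      · simp [h1, h2]
  have hcard : #(univ.filter fun j => v j ≠ 0) = 2 := by rw [hv, card_pair hpq]
  have h := mu_fixed_le v
  rw [hcard] at h
  have hn2 : 2 ≤ n := by
    have := card_le_univ (univ.filter fun j => v j ≠ 0)
    rw [hcard, Fintype.card_fin] at this; exact this
  refine le_trans (mu_mono ?_) (h.trans (le_of_eq ?_))
  · intro σ hσ i
    have h1 := hσ i
    rw [← hc] at h1
    have : ∀ j, ent σ i j * v j = (if j = p then ent σ i p else 0) + (if j = q then - c * ent σ i q else 0) := by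
      intro j
      simp only [v]
      by_cases h2 : j = p
      · subst h2
        simp [hpq]
      · by_cases h3 : j = q
        · subst h3
          simp [h2]; ring
        · simp [h2, h3]
    simp_rw [this]
    rw [sum_add_distrib, sum_ite_eq', sum_ite_eq']
    simp [h1]
  · rw [prod_range_succ, prod_range_one, zero_add, lo_one, lo_two]
    have : (2:ℝ) ^ n = 2 ^ (n - 2) * 2 ^ 2 := by rw [← pow_add]; congr 1; omega
    rw [this]
    field_simp
    rw [← mul_pow]
    norm_num

/-- The sparse kernel event. -/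
def Sparse (z : ℕ) (σ : Sym2 (Fin n) → Bool) : Prop :=
  ∃ w : Fin n → ℝ, w ≠ 0 ∧ InKer (ent σ) w ∧ z ≤ #{j | w j = 0}

lemma sparse_imp (z : ℕ) (σ : Sym2 (Fin n) → Bool) (h : Sparse z σ) :
    (∃ pq ∈ (univ : Finset (Fin n)).offDiag, Fp pq.1 pq.2 σ) ∨
    ∃ SD ∈ ((univ : Finset (Finset (Fin n) × Finset (Fin n))).filter
      (fun SD => 3 ≤ #SD.1 ∧ #SD.1 + z ≤ n ∧ #SD.2 + 1 = #SD.1)), Ev SD.1 SD.2 σ := by
  classical
  obtain ⟨w0, hw0, hA0, hz0⟩ := h
  obtain ⟨w, hw, hA, hle, hmin⟩ := exists_min_ker (ent σ) w0 hw0 hA0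
  have hz : #{j | w j ≠ 0} + z ≤ n := by
    have h1 : #{j | w0 j = 0} + #{j | w0 j ≠ 0} = n := by
      have := card_filter_add_card_filter_not (s := (univ : Finset (Fin n))) (fun j => w0 j = 0)
      rwa [card_univ, Fintype.card_fin] at this
    omega
  obtain ⟨D, hDc, hD⟩ := exists_rows (ent σ) w hw hA hmin
  by_cases h3 : 3 ≤ #{j | w j ≠ 0}
  · right
    refine ⟨(univ.filter (fun j => w j ≠ 0), D), ?_, ?_⟩
    · simp only [mem_filter, mem_univ, true_and]
      exact ⟨h3, hz, hDc⟩
    · have hQ : Q (univ.filter fun j => w j ≠ 0) D σ w :=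
        ⟨fun j => by simp, fun d _ => hA d⟩
      have hex : ∃ x, Q (univ.filter fun j => w j ≠ 0) D σ x := ⟨w, hQ⟩
      refine ⟨?_, hex⟩
      intro i _
      have hv := vec_spec _ D σ hex
      obtain ⟨c, hc⟩ := hD (vec (univ.filter fun j => w j ≠ 0) D σ) (by
        intro j hj
        by_contra h0
        have := (hv.1 j).mp h0
        simp only [mem_filter, mem_univ, true_and] at this
        exact this hj) hv.2
      simp only
      rw [hc]
      have : ∑ j, ent σ i j * (c • w) j = c * ∑ j, ent σ i j * w j := by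
        rw [mul_sum]
        apply sum_congr rfl
        intro j _
        simp only [Pi.smul_apply, smul_eq_mul]; ring
      rw [this, hA i, mul_zero]
  · left
    push Not at h3
    obtain ⟨j0, hj0⟩ : ∃ j, w j ≠ 0 := by
      by_contra h
      push Not at h
      exact hw (funext h)
    have hpos : 0 < #{j | w j ≠ 0} := card_pos.mpr ⟨j0, by simpa using hj0⟩
    rcases Nat.lt_or_ge (#{j | w j ≠ 0}) 2 with h1 | h2
    · -- support of size one: impossible
      exfalso
      have h1' : #{j | w j ≠ 0} = 1 := by omega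
      rw [card_eq_one] at h1'
      obtain ⟨p, hp⟩ := h1'
      have hzero : ∀ j, j ≠ p → w j = 0 := by
        intro j hj
        by_contra h0
        have : j ∈ (univ.filter fun j => w j ≠ 0) := by simpa using h0
        rw [hp, mem_singleton] at this
        exact hj this
      have hk := hA p
      rw [sum_eq_single p (fun j _ hj => by rw [hzero j hj, mul_zero]) (by simp)] at hk
      have hwp : w p ≠ 0 := by
        have : p ∈ (univ.filter fun j => w j ≠ 0) := by rw [hp]; simp
        simpa using this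
      rcases mul_eq_zero.mp hk with h | h
      · exact ent_ne_zero σ p p h
      · exact hwp h
    · have h2' : #{j | w j ≠ 0} = 2 := by omega
      rw [card_eq_two] at h2'
      obtain ⟨p, q, hpq, hS⟩ := h2'
      -- WLOG p < q
      have main : ∀ p q : Fin n, p < q → (univ.filter fun j => w j ≠ 0) = {p, q} →
          (∃ pq ∈ (univ : Finset (Fin n)).offDiag, Fp pq.1 pq.2 σ) := by
        intro p q hlt hS
        have hpq : p ≠ q := ne_of_lt hlt
        have hzero : ∀ j, j ≠ p → j ≠ q → w j = 0 := by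
          intro j hj hj'
          by_contra h0
          have : j ∈ (univ.filter fun j => w j ≠ 0) := by simpa using h0
          rw [hS, mem_insert, mem_singleton] at this
          tauto
        have hwp : w p ≠ 0 := by
          have : p ∈ (univ.filter fun j => w j ≠ 0) := by rw [hS]; simp
          simpa using this
        have hk : ∀ i, ent σ i p * w p + ent σ i q * w q = 0 := by
          intro i
          have := hA i
          have hsub : ∑ j ∈ ({p, q} : Finset (Fin n)), ent σ i j * w j = ∑ j, ent σ i j * w j := by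
            apply sum_subset (subset_univ _)
            intro j _ hj
            rw [mem_insert, mem_singleton, not_or] at hj
            rw [hzero j hj.1 hj.2, mul_zero]
          rw [← hsub, sum_pair hpq] at this
          exact this
        have hr : ∀ i, ent σ i p = (-(w q / w p)) * ent σ i q := by
          intro i
          have := hk i
          field_simp
          linarith
        have hc : -(w q / w p) = 1 ∨ -(w q / w p) = -1 := by
          have h1 := hr p
          rcases ent_eq σ p p with ha | ha <;> rcases ent_eq σ p q with hb | hb <;>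
            rw [ha, hb] at h1
          · left; linarith
          · right; linarith
          · right; linarith
          · left; linarith
        rcases hc with hc | hc
        · refine ⟨(p, q), by simp [hpq], ?_⟩
          intro i
          simp only
          rw [if_pos hlt, hr i, hc]
        · refine ⟨(q, p), by simp [hpq.symm], ?_⟩
          intro i
          simp only
          rw [if_neg (not_lt.mpr hlt.le), hr i, hc]
          ring
      rcases lt_or_gt_of_ne hpq with h | h
      · exact main p q h hS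
      · exact main q p h (by rw [hS, pair_comm])

lemma mu_sparse_le (z : ℕ) :
    mu (Sparse (n := n) z) ≤ (n * (n - 1) : ℝ) / 2 ^ n +
      ∑ SD ∈ ((univ : Finset (Finset (Fin n) × Finset (Fin n))).filter
      (fun SD => 3 ≤ #SD.1 ∧ #SD.1 + z ≤ n ∧ #SD.2 + 1 = #SD.1)),
        lo (#SD.1) ^ (#(SD.1 ∪ SD.2)ᶜ) * ∏ t ∈ range (#(SD.1 \ SD.2)), lo (t + 1) := by
  classical
  refine (mu_mono (sparse_imp z)).trans ((mu_or_le _ _).trans (add_le_add ?_ ?_))
  · refine (mu_exists_le _ (fun pq : Fin n × Fin n => Fp pq.1 pq.2)).trans ?_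
    refine (sum_le_sum (g := fun _ => 1 / 2 ^ n) ?_).trans ?_
    · rintro ⟨p, q⟩ hpq
      rw [mem_offDiag] at hpq
      exact mu_Fp_le p q hpq.2.2
    · rw [sum_const, offDiag_card, card_univ, Fintype.card_fin, nsmul_eq_mul]
      rcases Nat.eq_zero_or_pos n with h | h
      · subst h; simp
      · have : ((n * n - n : ℕ) : ℝ) = n * (n - 1) := by
          rw [Nat.cast_sub (Nat.le_mul_of_pos_left n h)]; push_cast; ring
        rw [this]
        exact le_of_eq (by ring)
  · refine (mu_exists_le _ (fun SD : Finset (Fin n) × Finset (Fin n) => Ev SD.1 SD.2)).trans ?_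
    exact sum_le_sum fun SD _ => mu_Ev_le SD.1 SD.2

end Vale.H16.Sym
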