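import Vale.Agent.H16.SymC

/-!
Numerical estimates.
-/

open Finset

namespace Vale.H16.Sym

lemma cb_sq (m : ℕ) : (Nat.centralBinom m : ℝ) ^ 2 * (2 * m + 1) ≤ (2 ^ (2 * m)) ^ 2 := by
  induction m with
  | zero => simp
  | succ m ih =>
    have h := Nat.succ_mul_centralBinom_succ m
    have h' : ((m : ℝ) + 1) * (Nat.centralBinom (m + 1) : ℝ) = 2 * (2 * m + 1) * Nat.centralBinom m := by
      exact_mod_cast h
    have hm : (0 : ℝ) < (m : ℝ) + 1 := by positivity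
    have h2 : (Nat.centralBinom (m + 1) : ℝ) = 2 * (2 * m + 1) * Nat.centralBinom m / (m + 1) := by
      field_simp; linarith
    rw [h2]
    have h3 : (2 * (2 * (m:ℝ) + 1) * (Nat.centralBinom m : ℝ) / (m + 1)) ^ 2 * (2 * ((m + 1 : ℕ) : ℝ) + 1) =
        ((Nat.centralBinom m : ℝ) ^ 2 * (2 * m + 1)) * (4 * (2 * m + 1) * (2 * m + 3) / (m + 1) ^ 2) := by
      push_cast
      field_simp
      ring
    rw [h3]
    have h4 : (4 * (2 * (m:ℝ) + 1) * (2 * m + 3) / (m + 1) ^ 2) ≤ 16 := by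
      rw [div_le_iff₀ (by positivity)]
      nlinarith
    have h5 : (0:ℝ) ≤ 4 * (2 * (m:ℝ) + 1) * (2 * m + 3) / (m + 1) ^ 2 := by positivity
    calc ((Nat.centralBinom m : ℝ) ^ 2 * (2 * m + 1)) * (4 * (2 * m + 1) * (2 * m + 3) / (m + 1) ^ 2)
        ≤ (2 ^ (2 * m)) ^ 2 * 16 := mul_le_mul ih h4 h5 (by positivity)
      _ = (2 ^ (2 * (m + 1))) ^ 2 := by ring

lemma lo_even (m : ℕ) : lo (2 * m) = (Nat.centralBinom m : ℝ) / 2 ^ (2 * m) := by
  unfold lo Nat.centralBinom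
  rw [Nat.mul_div_cancel_left m (by norm_num)]

lemma lo_odd (m : ℕ) : lo (2 * m + 1) = lo (2 * (m + 1)) := by
  rw [lo_even]
  unfold lo
  have h1 : (2 * m + 1) / 2 = m := by omega
  rw [h1]
  have h2 : Nat.centralBinom (m + 1) = 2 * (2 * m + 1).choose m := by
    unfold Nat.centralBinom
    rw [show 2 * (m + 1) = (2 * m + 1) + 1 by ring, Nat.choose_succ_succ]
    have : (2 * m + 1).choose (m + 1) = (2 * m + 1).choose m := by
      apply Nat.choose_symm_of_eq_add; ring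
    rw [this]; ring
  rw [h2]
  push_cast
  have : (2:ℝ) ^ (2 * (m + 1)) = 2 * 2 ^ (2 * m + 1) := by ring
  rw [this]
  rw [mul_div_mul_left _ _ (by norm_num)]

lemma lo_even_sq (m : ℕ) : lo (2 * m) ^ 2 * (2 * m + 1) ≤ 1 := by
  rw [lo_even, div_pow, div_mul_eq_mul_div, div_le_one (by positivity)]
  exact cb_sq m

lemma lo_sq (f : ℕ) : lo f ^ 2 * (f + 1) ≤ 1 := by
  rcases Nat.even_or_odd' f with ⟨m, rfl | rfl⟩
  · have := lo_even_sq m
    push_cast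
    linarith
  · rw [lo_odd]
    have := lo_even_sq (m + 1)
    push_cast at this ⊢
    have h0 : 0 ≤ lo (2 * (m + 1)) ^ 2 := sq_nonneg _
    nlinarith

lemma lo_even_le (m : ℕ) (hm : 2 ≤ m) : lo (2 * m) ≤ 3 / 8 := by
  induction m, hm using Nat.le_induction with
  | base => rw [lo_even]; norm_num [Nat.centralBinom, Nat.choose]
  | succ m hm ih =>
    refine le_trans ?_ ih
    rw [lo_even, lo_even]
    have h := Nat.succ_mul_centralBinom_succ m
    have h' : ((m : ℝ) + 1) * (Nat.centralBinom (m + 1) : ℝ) = 2 * (2 * m + 1) * Nat.centralBinom m := by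
      exact_mod_cast h
    have h2 : (Nat.centralBinom (m + 1) : ℝ) ≤ 4 * Nat.centralBinom m := by
      have hc : (0:ℝ) ≤ Nat.centralBinom m := by positivity
      nlinarith
    rw [div_le_div_iff₀ (by positivity) (by positivity)]
    calc (Nat.centralBinom (m + 1) : ℝ) * 2 ^ (2 * m) ≤ 4 * Nat.centralBinom m * 2 ^ (2 * m) :=
          mul_le_mul_of_nonneg_right h2 (by positivity)
      _ = _ := by ring

lemma lo_le_three_eighths (f : ℕ) (hf : 3 ≤ f) : lo f ≤ 3 / 8 := by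
  rcases Nat.even_or_odd' f with ⟨m, rfl | rfl⟩
  · exact lo_even_le m (by omega)
  · rw [lo_odd]; exact lo_even_le (m + 1) (by omega)

lemma lo_le_of_sq (f : ℕ) (b : ℝ) (hb : 0 ≤ b) (h : 1 ≤ b ^ 2 * (f + 1)) : lo f ≤ b := by
  have h1 := lo_sq f
  have hf : (0:ℝ) < f + 1 := by positivity
  have h2 : lo f ^ 2 ≤ b ^ 2 := by
    by_contra hcon
    push Not at hcon
    have : b ^ 2 * (f + 1) < lo f ^ 2 * (f + 1) := mul_lt_mul_of_pos_right hcon hf
    linarith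
  exact (le_abs_self _).trans (abs_le_of_sq_le_sq h2 hb)

/-- product bound -/
lemma prod_lo_le (b : ℝ) (hb0 : 0 ≤ b) (m : ℕ) (hm : ∀ f, m ≤ f → lo f ≤ b) (u : ℕ) :
    ∏ t ∈ range u, lo (t + 1) ≤ b ^ (u - m) := by
  induction u with
  | zero => simp
  | succ u ih =>
    rw [prod_range_succ]
    have hp : 0 ≤ ∏ t ∈ range u, lo (t + 1) := prod_nonneg fun _ _ => lo_nonneg _
    rcases Nat.lt_or_ge u m with h | h
    · have h1 : u + 1 - m = u - m := by omega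
      rw [h1]
      calc (∏ t ∈ range u, lo (t + 1)) * lo (u + 1) ≤ (∏ t ∈ range u, lo (t + 1)) * 1 :=
            mul_le_mul_of_nonneg_left (lo_le_one _) hp
        _ = _ := mul_one _
        _ ≤ _ := ih
    · have h1 : u + 1 - m = (u - m) + 1 := by omega
      rw [h1, pow_succ]
      exact mul_le_mul ih (hm (u + 1) (by omega)) (lo_nonneg _) (pow_nonneg hb0 _)

variable {n : ℕ}

lemma card_union_compl (S D : Finset (Fin n)) (hD : #D + 1 = #S) :
    #(S ∪ D)ᶜ = n + 1 - #S - #(S \ D) ∧ #(S \ D) ≤ #S ∧ #(S \ D) + #S ≤ n + 1 := by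
  have h1 : #(S ∪ D) = #D + #(S \ D) := by
    have : S ∪ D = D ∪ (S \ D) := by
      ext x; simp only [mem_union, mem_sdiff]; tauto
    rw [this, card_union_of_disjoint disjoint_sdiff]
  have h2 := card_compl (S ∪ D)
  have h3 : #(S ∪ D) ≤ n := by
    have := card_le_univ (S ∪ D); rwa [Fintype.card_fin] at this
  rw [Fintype.card_fin] at h2
  have h4 := card_le_card (sdiff_subset : S \ D ⊆ S)
  refine ⟨?_, h4, ?_⟩ <;> omega

/-- small supports -/
lemma sumA (r : ℕ) (hr : 1 ≤ r) (hn : 1 ≤ n) (T : Finset (Finset (Fin n) × Finset (Fin n)))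
    (hT : ∀ SD ∈ T, 3 ≤ #SD.1 ∧ #SD.1 ≤ r ∧ #SD.2 + 1 = #SD.1) :
    ∑ SD ∈ T, lo (#SD.1) ^ (#(SD.1 ∪ SD.2)ᶜ) * ∏ t ∈ range (#(SD.1 \ SD.2)), lo (t + 1) ≤
      ((r + 1 : ℝ) * (n : ℝ) ^ (2 * r)) * (3 / 8 : ℝ) ^ (n - 2 * r) := by
  classical
  have hterm : ∀ SD ∈ T, lo (#SD.1) ^ (#(SD.1 ∪ SD.2)ᶜ) * ∏ t ∈ range (#(SD.1 \ SD.2)), lo (t + 1) ≤
      (3 / 8 : ℝ) ^ (n - 2 * r) := by
    rintro ⟨S, D⟩ h
    obtain ⟨h3, hs, hD⟩ := hT _ h
    simp only at h3 hs hD ⊢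
    obtain ⟨hc, hu, _⟩ := card_union_compl S D hD
    have hp1 : ∏ t ∈ range (#(S \ D)), lo (t + 1) ≤ 1 :=
      prod_le_one (fun _ _ => lo_nonneg _) (fun _ _ => lo_le_one _)
    have hp0 : 0 ≤ ∏ t ∈ range (#(S \ D)), lo (t + 1) := prod_nonneg fun _ _ => lo_nonneg _
    calc lo (#S) ^ (#(S ∪ D)ᶜ) * ∏ t ∈ range (#(S \ D)), lo (t + 1)
        ≤ (3 / 8 : ℝ) ^ (#(S ∪ D)ᶜ) * 1 :=
          mul_le_mul (pow_le_pow_left₀ (lo_nonneg _) (lo_le_three_eighths _ h3) _) hp1 hp0 (by positivity)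
      _ = (3 / 8 : ℝ) ^ (#(S ∪ D)ᶜ) := mul_one _
      _ ≤ (3 / 8 : ℝ) ^ (n - 2 * r) := pow_le_pow_of_le_one (by norm_num) (by norm_num) (by omega)
  have hcard : (#T : ℝ) ≤ (r + 1 : ℝ) * (n : ℝ) ^ (2 * r) := by
    have hsub : T ⊆ (range (r + 1)).biUnion (fun s =>
        (powersetCard s (univ : Finset (Fin n))) ×ˢ (powersetCard (s - 1) (univ : Finset (Fin n)))) := by
      rintro ⟨S, D⟩ h
      obtain ⟨h3, hs, hD⟩ := hT _ h
      simp only at h3 hs hD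
      rw [mem_biUnion]
      refine ⟨#S, by rw [mem_range]; omega, ?_⟩
      rw [mem_product, mem_powersetCard, mem_powersetCard]
      exact ⟨⟨subset_univ _, rfl⟩, subset_univ _, by simp only; omega⟩
    have h1 := (card_le_card hsub).trans card_biUnion_le
    have h2 : ∑ s ∈ range (r + 1), #((powersetCard s (univ : Finset (Fin n))) ×ˢ
        (powersetCard (s - 1) (univ : Finset (Fin n)))) ≤ ∑ _s ∈ range (r + 1), n ^ (2 * r) := by
      apply sum_le_sum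
      intro s hs
      rw [mem_range] at hs
      rw [card_product, card_powersetCard, card_powersetCard, card_univ, Fintype.card_fin]
      calc n.choose s * n.choose (s - 1) ≤ n ^ s * n ^ (s - 1) :=
            Nat.mul_le_mul (Nat.choose_le_pow n s) (Nat.choose_le_pow n (s - 1))
        _ = n ^ (s + (s - 1)) := (pow_add _ _ _).symm
        _ ≤ n ^ (2 * r) := Nat.pow_le_pow_right hn (by omega)
    rw [sum_const, card_range, smul_eq_mul] at h2
    have h3 := h1.trans h2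
    have h4 : (#T : ℝ) ≤ (((r + 1) * n ^ (2 * r) : ℕ) : ℝ) := by exact_mod_cast h3
    push_cast at h4
    exact h4
  calc _ ≤ ∑ _SD ∈ T, (3 / 8 : ℝ) ^ (n - 2 * r) := sum_le_sum hterm
    _ = #T * (3 / 8 : ℝ) ^ (n - 2 * r) := by rw [sum_const, nsmul_eq_mul]
    _ ≤ _ := mul_le_mul_of_nonneg_right hcard (by positivity)

/-- large supports -/
lemma sumB (z m : ℕ) (b : ℝ) (hb0 : 0 ≤ b) (hb1 : b ≤ 1) (hm : ∀ f, m ≤ f → lo f ≤ b)
    (T : Finset (Finset (Fin n) × Finset (Fin n)))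
    (hT : ∀ SD ∈ T, m ≤ #SD.1 ∧ #SD.1 + z ≤ n ∧ #SD.2 + 1 = #SD.1) :
    ∑ SD ∈ T, lo (#SD.1) ^ (#(SD.1 ∪ SD.2)ᶜ) * ∏ t ∈ range (#(SD.1 \ SD.2)), lo (t + 1) ≤
      (4 : ℝ) ^ n * b ^ (z - m) := by
  classical
  have hterm : ∀ SD ∈ T, lo (#SD.1) ^ (#(SD.1 ∪ SD.2)ᶜ) * ∏ t ∈ range (#(SD.1 \ SD.2)), lo (t + 1) ≤
      b ^ (z - m) := by
    rintro ⟨S, D⟩ h
    obtain ⟨h3, hs, hD⟩ := hT _ h
    simp only at h3 hs hD ⊢
    obtain ⟨hc, hu, hu2⟩ := card_union_compl S D hD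
    have hp0 : 0 ≤ ∏ t ∈ range (#(S \ D)), lo (t + 1) := prod_nonneg fun _ _ => lo_nonneg _
    calc lo (#S) ^ (#(S ∪ D)ᶜ) * ∏ t ∈ range (#(S \ D)), lo (t + 1)
        ≤ b ^ (#(S ∪ D)ᶜ) * b ^ (#(S \ D) - m) :=
          mul_le_mul (pow_le_pow_left₀ (lo_nonneg _) (hm _ h3) _) (prod_lo_le b hb0 m hm _) hp0
            (pow_nonneg hb0 _)
      _ = b ^ (#(S ∪ D)ᶜ + (#(S \ D) - m)) := (pow_add _ _ _).symm
      _ ≤ b ^ (z - m) := pow_le_pow_of_le_one hb0 hb1 (by omega)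
  have hcard : (#T : ℝ) ≤ (4 : ℝ) ^ n := by
    have h1 := card_le_univ T
    rw [Fintype.card_prod, Fintype.card_finset, Fintype.card_fin, ← mul_pow] at h1
    exact_mod_cast h1
  calc _ ≤ ∑ _SD ∈ T, b ^ (z - m) := sum_le_sum hterm
    _ = #T * b ^ (z - m) := by rw [sum_const, nsmul_eq_mul]
    _ ≤ _ := mul_le_mul_of_nonneg_right hcard (pow_nonneg hb0 _)

/-- combined -/
lemma mu_sparse_le' (z r : ℕ) (b : ℝ) (hb0 : 0 ≤ b) (hb1 : b ≤ 1) (hm : ∀ f, r ≤ f → lo f ≤ b)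
    (hr : 1 ≤ r) (hn : 1 ≤ n) :
    mu (Sparse (n := n) z) ≤ (n * (n - 1) : ℝ) / 2 ^ n +
      (((r + 1 : ℝ) * (n : ℝ) ^ (2 * r)) * (3 / 8 : ℝ) ^ (n - 2 * r) + (4 : ℝ) ^ n * b ^ (z - r)) := by
  classical
  refine (mu_sparse_le z).trans (add_le_add le_rfl ?_)
  rw [← sum_filter_add_sum_filter_not _ (fun SD : Finset (Fin n) × Finset (Fin n) => #SD.1 ≤ r)]
  apply add_le_add
  · apply sumA r hr hn
    intro SD h
    rw [mem_filter, mem_filter] at h
    exact ⟨h.1.2.1, h.2, h.1.2.2.2⟩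
  · apply sumB z r b hb0 hb1 hm
    intro SD h
    rw [mem_filter, mem_filter] at h
    exact ⟨by omega, h.1.2.2.1, h.1.2.2.2⟩

/-- bounded integer vectors of large support -/
lemma mu_int_le (K z : ℕ) (β : ℝ)
    (hβ : ∀ s, s ≤ n → n < s + z → lo s ^ (n - s) * ∏ t ∈ range s, lo (t + 1) ≤ β) (hβ0 : 0 ≤ β) :
    mu (fun σ : Sym2 (Fin n) → Bool => Sparse z σ ∨ ∃ w : Fin n → ℤ, w ≠ 0 ∧ (∀ i, |w i| ≤ K) ∧
      InKer (ent σ) (fun i => (w i : ℝ))) ≤ mu (Sparse (n := n) z) + (2 * K + 1 : ℝ) ^ n * β := by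
  classical
  let W : Finset (Fin n → ℤ) := (Fintype.piFinset (fun _ : Fin n => Icc (-(K:ℤ)) K)).filter
    (fun w => n < #{j | (w j : ℝ) ≠ 0} + z)
  have h1 : ∀ σ : Sym2 (Fin n) → Bool, (Sparse z σ ∨ ∃ w : Fin n → ℤ, w ≠ 0 ∧ (∀ i, |w i| ≤ K) ∧
      InKer (ent σ) (fun i => (w i : ℝ))) →
      Sparse z σ ∨ ∃ w ∈ W, InKer (ent σ) (fun i => (w i : ℝ)) := by
    rintro σ (hs | ⟨w, hw0, hwK, hw⟩)
    · exact Or.inl hs
    by_cases hz : n < #{j | (w j : ℝ) ≠ 0} + z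
    · right
      refine ⟨w, ?_, hw⟩
      rw [mem_filter, Fintype.mem_piFinset]
      refine ⟨?_, hz⟩
      intro i
      rw [mem_Icc]
      exact abs_le.mp (hwK i)
    · left
      refine ⟨fun i => (w i : ℝ), ?_, hw, ?_⟩
      · intro h
        apply hw0
        funext i
        have := congrFun h i
        simpa using this
      · have h2 : #{j | (w j : ℝ) = 0} + #{j | (w j : ℝ) ≠ 0} = n := by
          have := card_filter_add_card_filter_not (s := (univ : Finset (Fin n))) (fun j => (w j : ℝ) = 0)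
          rwa [card_univ, Fintype.card_fin] at this
        change z ≤ #{j | (w j : ℝ) = 0}
        omega
  refine (mu_mono h1).trans ((mu_or_le _ _).trans (add_le_add le_rfl ?_))
  refine (mu_exists_le W (fun w σ => InKer (ent σ) (fun i => (w i : ℝ)))).trans ?_
  have hterm : ∀ w ∈ W, mu (fun σ : Sym2 (Fin n) → Bool => InKer (ent σ) (fun i => (w i : ℝ))) ≤ β := by
    intro w hw
    rw [mem_filter] at hw
    refine (mu_fixed_le (fun i => (w i : ℝ))).trans (hβ _ ?_ hw.2)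
    have := card_le_univ (univ.filter fun j => (w j : ℝ) ≠ 0)
    rwa [Fintype.card_fin] at this
  refine (sum_le_sum hterm).trans ?_
  rw [sum_const, nsmul_eq_mul]
  apply mul_le_mul_of_nonneg_right _ hβ0
  have h3 : #W ≤ (2 * K + 1) ^ n := by
    refine (card_filter_le _ _).trans ?_
    rw [Fintype.card_piFinset]
    simp only [Int.card_Icc, prod_const, card_univ, Fintype.card_fin]
    apply Nat.pow_le_pow_left
    have : ((K:ℤ) + 1 - -(K:ℤ)).toNat = 2 * K + 1 := by omega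
    omega
  exact_mod_cast h3

/-- product bound for full supports -/
lemma prod_lo_sq (s : ℕ) : (∏ t ∈ range s, lo (t + 1)) ^ 2 * (s.factorial : ℝ) ≤ 1 := by
  induction s with
  | zero => simp
  | succ s ih =>
    rw [prod_range_succ, Nat.factorial_succ, mul_pow]
    have h := lo_sq (s + 1)
    push_cast at h ⊢
    have h0 : (0:ℝ) ≤ lo (s + 1) ^ 2 := sq_nonneg _
    have h1 : lo (s + 1) ^ 2 * ((s:ℝ) + 1) ≤ 1 := by nlinarith
    have h2 : 0 ≤ lo (s + 1) ^ 2 * ((s:ℝ) + 1) := by positivity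
    calc (∏ t ∈ range s, lo (t + 1)) ^ 2 * lo (s + 1) ^ 2 * (((s:ℝ) + 1) * (s.factorial : ℝ))
        = ((∏ t ∈ range s, lo (t + 1)) ^ 2 * (s.factorial : ℝ)) * (lo (s + 1) ^ 2 * ((s:ℝ) + 1)) := by ring
      _ ≤ 1 * 1 := mul_le_mul ih h1 h2 (by norm_num)
      _ = 1 := by norm_num

/-- if `2 s ≥ n` then the fixed vector bound is at most `(2e/n)^{n/2}`, squared form -/
lemma fixed_sq (s : ℕ) (hs : s ≤ n) (hn : n ≤ 2 * s) (hn1 : 1 ≤ n) :
    (lo s ^ (n - s) * ∏ t ∈ range s, lo (t + 1)) ^ 2 ≤ (2 * Real.exp 1 / n) ^ n := by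
  have hn' : (0:ℝ) < n := by exact_mod_cast hn1
  have hs' : (0:ℝ) < s := by exact_mod_cast (by omega : 0 < s)
  have hle : (n:ℝ) ≤ 2 * s := by exact_mod_cast hn
  have h1 := prod_lo_sq s
  have h2 := Real.pow_div_factorial_le_exp (s:ℝ) hs'.le s
  have hf : (0:ℝ) < s.factorial := by exact_mod_cast Nat.factorial_pos s
  have h3 : (∏ t ∈ range s, lo (t + 1)) ^ 2 ≤ (Real.exp 1 / s) ^ s := by
    have h4 : (∏ t ∈ range s, lo (t + 1)) ^ 2 ≤ 1 / (s.factorial : ℝ) := by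
      rw [le_div_iff₀ hf]; exact h1
    refine h4.trans ?_
    rw [div_le_iff₀ hf] at h2
    rw [div_pow, ← Real.exp_nat_mul, mul_one]
    rw [div_le_div_iff₀ hf (by positivity)]
    linarith
  have h5 : lo s ^ 2 ≤ 1 / s := by
    rw [le_div_iff₀ hs']
    have := lo_sq s
    have h0 : (0:ℝ) ≤ lo s ^ 2 := sq_nonneg _
    nlinarith
  have he : (1:ℝ) ≤ Real.exp 1 := Real.one_le_exp (by norm_num)
  have h6 : 1 / (s:ℝ) ≤ 2 * Real.exp 1 / n := by
    rw [div_le_div_iff₀ hs' hn']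
    nlinarith
  have h7 : Real.exp 1 / (s:ℝ) ≤ 2 * Real.exp 1 / n := by
    rw [div_le_div_iff₀ hs' hn']
    nlinarith
  have hb : (0:ℝ) ≤ 2 * Real.exp 1 / n := by positivity
  calc (lo s ^ (n - s) * ∏ t ∈ range s, lo (t + 1)) ^ 2
      = (lo s ^ 2) ^ (n - s) * (∏ t ∈ range s, lo (t + 1)) ^ 2 := by
        rw [mul_pow, ← pow_mul, ← pow_mul, mul_comm (n - s) 2]
    _ ≤ (2 * Real.exp 1 / n) ^ (n - s) * (2 * Real.exp 1 / n) ^ s := by
        apply mul_le_mul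
        · exact pow_le_pow_left₀ (sq_nonneg _) (h5.trans h6) _
        · exact h3.trans (pow_le_pow_left₀ (by positivity) h7 _)
        · exact sq_nonneg _
        · exact pow_nonneg hb _
    _ = (2 * Real.exp 1 / n) ^ n := by rw [← pow_add]; congr 1; omega

end Vale.H16.Sym
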