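import Vale.Agent.H16.SymD

/-!
Asymptotics.
-/

open Finset Filter

namespace Vale.H16.Sym

/-- structured vectors -/
def StructuredVec (n : ℕ) (w : Fin n → ℝ) : Prop :=
  (32 * n / Real.log n ≤ (#{j | w j = 0} : ℝ)) ∨ ∀ i, (∃ m : ℤ, w i = m) ∧ |w i| ≤ Real.sqrt n / 50

lemma ev_sqrt_log (ε : ℝ) (hε : 0 < ε) : ∀ᶠ n : ℕ in atTop, Real.sqrt n * Real.log n ≤ ε * n := by
  have h := (isLittleO_log_rpow_atTop (show (0:ℝ) < 1/2 by norm_num)).bound hε
  have h2 := tendsto_natCast_atTop_atTop.eventually h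
  filter_upwards [h2, eventually_ge_atTop 1] with n hn h1
  have hn0 : (0:ℝ) < n := by exact_mod_cast h1
  have hlog : 0 ≤ Real.log n := Real.log_natCast_nonneg n
  rw [← Real.sqrt_eq_rpow, Real.norm_of_nonneg hlog, Real.norm_of_nonneg (Real.sqrt_nonneg _)] at hn
  calc Real.sqrt n * Real.log n ≤ Real.sqrt n * (ε * Real.sqrt n) :=
        mul_le_mul_of_nonneg_left hn (Real.sqrt_nonneg _)
    _ = ε * (Real.sqrt n * Real.sqrt n) := by ring
    _ = ε * n := by rw [Real.mul_self_sqrt hn0.le]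

lemma exp98 : (3 / 8 : ℝ) ≤ Real.exp (-(98 / 100)) := by
  have h1 : Real.exp (98 / 100) ≤ 8 / 3 := by
    have h2 : Real.exp (98 / 100) * Real.exp (2 / 100) = Real.exp 1 := by
      rw [← Real.exp_add]; norm_num
    have h3 : (1:ℝ) + 2 / 100 ≤ Real.exp (2 / 100) := by
      have := Real.add_one_le_exp (2 / 100 : ℝ); linarith
    have h4 := Real.exp_one_lt_d9
    have h5 : 0 < Real.exp (98 / 100 : ℝ) := Real.exp_pos _
    nlinarith
  rw [Real.exp_neg]
  rw [le_inv_comm₀ (by norm_num) (Real.exp_pos _)]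
  norm_num
  linarith

/-- term A -/
lemma evA : ∀ᶠ n : ℕ in atTop,
    (((Nat.sqrt n + 1 : ℕ) + 1 : ℝ) * (n : ℝ) ^ (2 * (Nat.sqrt n + 1))) *
      (3 / 8 : ℝ) ^ (n - 2 * (Nat.sqrt n + 1)) ≤ Real.exp (-(9 / 10) * n) := by
  filter_upwards [ev_sqrt_log (1 / 1000) (by norm_num), eventually_ge_atTop 1000000] with n h1 hn
  have hn0 : (0:ℝ) < n := by exact_mod_cast (by omega : 0 < n)
  have hnR : (1000000:ℝ) ≤ n := by exact_mod_cast hn
  set r := Nat.sqrt n + 1 with hr
  have hs1 : (1000:ℝ) ≤ Real.sqrt n := by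
    apply Real.le_sqrt_of_sq_le; norm_num; linarith
  have hss : Real.sqrt n * Real.sqrt n = n := Real.mul_self_sqrt hn0.le
  have hrle : (r:ℝ) ≤ Real.sqrt n + 1 := by
    rw [hr]; push_cast
    have := Real.nat_sqrt_le_real_sqrt (a := n)
    linarith
  have hr2 : (2 * r : ℝ) ≤ n := by nlinarith
  have hr2' : 2 * r ≤ n := by exact_mod_cast hr2
  have hlog1 : 1 ≤ Real.log n := by
    rw [Real.le_log_iff_exp_le hn0]
    have := Real.exp_one_lt_d9
    linarith
  have hlogn : Real.log n ≤ (1/1000) * n / 1000 := by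
    have : 1000 * Real.log n ≤ Real.sqrt n * Real.log n := mul_le_mul_of_nonneg_right hs1 (by linarith)
    linarith
  -- rewrite as exponentials
  have e1 : ((r:ℝ) + 1) ≤ Real.exp (Real.log n) := by
    rw [Real.exp_log hn0]; nlinarith
  have e2 : (n:ℝ) ^ (2 * r) = Real.exp ((2 * r : ℕ) * Real.log n) := by
    rw [Real.exp_nat_mul, Real.exp_log hn0]
  have e3 : (3 / 8 : ℝ) ^ (n - 2 * r) ≤ Real.exp (-(98 / 100) * ((n:ℝ) - 2 * r)) := by
    have : (((n - 2 * r : ℕ)) : ℝ) = (n:ℝ) - 2 * r := by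
      rw [Nat.cast_sub hr2']; push_cast; ring
    rw [← this, show -(98 / 100) * ((n - 2 * r : ℕ) : ℝ) = ((n - 2 * r : ℕ) : ℝ) * (-(98 / 100)) by ring,
      Real.exp_nat_mul]
    exact pow_le_pow_left₀ (by norm_num) exp98 _
  calc ((r:ℝ) + 1) * (n : ℝ) ^ (2 * r) * (3 / 8 : ℝ) ^ (n - 2 * r)
      ≤ Real.exp (Real.log n) * Real.exp ((2 * r : ℕ) * Real.log n) *
          Real.exp (-(98 / 100) * ((n:ℝ) - 2 * r)) := by
        rw [e2]
        apply mul_le_mul _ e3 (by positivity) (by positivity)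
        exact mul_le_mul_of_nonneg_right e1 (Real.exp_nonneg _)
    _ = Real.exp (Real.log n + (2 * r : ℕ) * Real.log n + -(98 / 100) * ((n:ℝ) - 2 * r)) := by
        rw [Real.exp_add, Real.exp_add]
    _ ≤ Real.exp (-(9 / 10) * n) := by
        apply Real.exp_le_exp.mpr
        push_cast
        have h2 : (r:ℝ) * Real.log n ≤ (Real.sqrt n + 1) * Real.log n :=
          mul_le_mul_of_nonneg_right hrle (by linarith)
        have h3 : (r:ℝ) ≤ n / 500 := by nlinarith
        nlinarith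

/-- term B -/
lemma evB : ∀ᶠ n : ℕ in atTop,
    (4 : ℝ) ^ n * ((n:ℝ) ^ (-(1 / 4 : ℝ))) ^ (⌈32 * (n:ℝ) / Real.log n⌉₊ - (Nat.sqrt n + 1)) ≤
      Real.exp (-(9 / 10) * n) := by
  filter_upwards [ev_sqrt_log (1 / 1000) (by norm_num), eventually_ge_atTop 1000000] with n h1 hn
  have hn0 : (0:ℝ) < n := by exact_mod_cast (by omega : 0 < n)
  have hnR : (1000000:ℝ) ≤ n := by exact_mod_cast hn
  have hs1 : (1000:ℝ) ≤ Real.sqrt n := by
    apply Real.le_sqrt_of_sq_le; norm_num; linarith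
  have hlog1 : 1 ≤ Real.log n := by
    rw [Real.le_log_iff_exp_le hn0]
    have := Real.exp_one_lt_d9
    linarith
  have hlog0 : 0 < Real.log n := by linarith
  set z := ⌈32 * (n:ℝ) / Real.log n⌉₊ with hz
  set r := Nat.sqrt n + 1 with hr
  have hzge : 32 * (n:ℝ) / Real.log n ≤ z := Nat.le_ceil _
  have hrle : (r:ℝ) ≤ Real.sqrt n + 1 := by
    rw [hr]; push_cast
    have := Real.nat_sqrt_le_real_sqrt (a := n)
    linarith
  have hzlog : 32 * (n:ℝ) ≤ z * Real.log n := by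
    rw [div_le_iff₀ hlog0] at hzge; exact hzge
  have hsub : (z:ℝ) - r ≤ ((z - r : ℕ) : ℝ) := by
    rcases Nat.lt_or_ge z r with h | h
    · have : z - r = 0 := by omega
      rw [this]
      have : (z:ℝ) < r := by exact_mod_cast h
      push_cast; linarith
    · rw [Nat.cast_sub h]
  have e1 : ((n:ℝ) ^ (-(1 / 4 : ℝ))) ^ (z - r) = Real.exp (-(1/4) * (((z - r : ℕ):ℝ) * Real.log n)) := by
    rw [Real.rpow_def_of_pos hn0, ← Real.exp_nat_mul]
    congr 1; ring
  have e2 : (4:ℝ) ^ n ≤ Real.exp (2 * n) := by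
    have : (4:ℝ) ≤ Real.exp 2 := by
      have h2 : Real.exp 2 = Real.exp 1 * Real.exp 1 := by rw [← Real.exp_add]; norm_num
      have := Real.exp_one_gt_d9
      rw [h2]; nlinarith
    rw [mul_comm, Real.exp_nat_mul]
    exact pow_le_pow_left₀ (by norm_num) this _
  rw [e1]
  calc (4:ℝ) ^ n * Real.exp (-(1/4) * (((z - r : ℕ):ℝ) * Real.log n))
      ≤ Real.exp (2 * n) * Real.exp (-(1/4) * (((z - r : ℕ):ℝ) * Real.log n)) :=
        mul_le_mul_of_nonneg_right e2 (Real.exp_nonneg _)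
    _ = Real.exp (2 * n + -(1/4) * (((z - r : ℕ):ℝ) * Real.log n)) := by rw [Real.exp_add]
    _ ≤ Real.exp (-(9 / 10) * n) := by
        apply Real.exp_le_exp.mpr
        have h2 : ((z:ℝ) - r) * Real.log n ≤ ((z - r : ℕ):ℝ) * Real.log n :=
          mul_le_mul_of_nonneg_right hsub hlog0.le
        have h3 : (r:ℝ) * Real.log n ≤ (Real.sqrt n + 1) * Real.log n :=
          mul_le_mul_of_nonneg_right hrle hlog0.le
        have h4 : 1000 * Real.log n ≤ Real.sqrt n * Real.log n :=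
          mul_le_mul_of_nonneg_right hs1 hlog0.le
        nlinarith

/-- term C -/
lemma evC : ∀ᶠ n : ℕ in atTop,
    (2 * (⌊Real.sqrt n / 50⌋₊ : ℝ) + 1) ^ n * Real.sqrt ((2 * Real.exp 1 / n) ^ n) ≤
      Real.exp (-(9 / 10) * n) := by
  filter_upwards [eventually_ge_atTop 1000000] with n hn
  have hn0 : (0:ℝ) < n := by exact_mod_cast (by omega : 0 < n)
  have hnR : (1000000:ℝ) ≤ n := by exact_mod_cast hn
  have hs1 : (1000:ℝ) ≤ Real.sqrt n := by
    apply Real.le_sqrt_of_sq_le; norm_num; linarith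
  have hss : Real.sqrt n * Real.sqrt n = n := Real.mul_self_sqrt hn0.le
  have hK : (⌊Real.sqrt n / 50⌋₊ : ℝ) ≤ Real.sqrt n / 50 := Nat.floor_le (by positivity)
  have h1 : 2 * (⌊Real.sqrt n / 50⌋₊ : ℝ) + 1 ≤ Real.sqrt n / 20 := by linarith
  have h2 : Real.sqrt ((2 * Real.exp 1 / n) ^ n) = (Real.sqrt (2 * Real.exp 1 / n)) ^ n := by
    rw [Real.sqrt_eq_iff_mul_self_eq (by positivity) (by positivity)]
    rw [← mul_pow, Real.mul_self_sqrt (by positivity)]
  rw [h2, ← mul_pow]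
  have he := Real.exp_one_lt_d9
  have he2 := Real.exp_one_gt_d9
  have h3 : Real.sqrt (2 * Real.exp 1 / n) = Real.sqrt (2 * Real.exp 1) / Real.sqrt n :=
    Real.sqrt_div (by positivity) _
  have h4 : Real.sqrt (2 * Real.exp 1) ≤ 24 / 10 := by
    rw [Real.sqrt_le_left (by norm_num)]; linarith
  have h5 : (2 * (⌊Real.sqrt n / 50⌋₊ : ℝ) + 1) * Real.sqrt (2 * Real.exp 1 / n) ≤ Real.exp (-(9/10)) := by
    have h6 : (2 * (⌊Real.sqrt n / 50⌋₊ : ℝ) + 1) * Real.sqrt (2 * Real.exp 1 / n) ≤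
        (Real.sqrt n / 20) * (24 / 10 / Real.sqrt n) := by
      rw [h3]
      apply mul_le_mul h1 _ (by positivity) (by positivity)
      exact div_le_div_of_nonneg_right h4 (by positivity)
    have h7 : (Real.sqrt n / 20) * (24 / 10 / Real.sqrt n) = 12 / 100 := by
      have : Real.sqrt n ≠ 0 := by positivity
      field_simp; norm_num
    have h8 : (12 / 100 : ℝ) ≤ Real.exp (-(9/10)) := by
      rw [Real.exp_neg, le_inv_comm₀ (by norm_num) (Real.exp_pos _)]
      have : Real.exp (9/10 : ℝ) ≤ Real.exp 1 := Real.exp_le_exp.mpr (by norm_num)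
      norm_num
      linarith
    linarith
  have h9 : Real.exp (-(9 / 10) * n) = (Real.exp (-(9/10))) ^ n := by
    rw [← Real.exp_nat_mul]; congr 1; ring
  rw [h9]
  exact pow_le_pow_left₀ (by positivity) h5 _

lemma evD : ∀ᶠ n : ℕ in atTop, Real.exp (-(9 / 10) * n) ≤ (1 / 4) / (2:ℝ) ^ n := by
  filter_upwards [eventually_ge_atTop 1000] with n hn
  have hnR : (1000:ℝ) ≤ n := by exact_mod_cast hn
  rw [le_div_iff₀ (by positivity)]
  have h1 : (2:ℝ) ^ n = Real.exp (n * Real.log 2) := by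
    rw [Real.exp_nat_mul, Real.exp_log (by norm_num)]
  rw [h1, ← Real.exp_add]
  have h2 := Real.log_two_lt_d9
  have h3 : -(9 / 10) * (n:ℝ) + n * Real.log 2 ≤ -2 := by nlinarith
  have h4 : Real.exp (-2 : ℝ) ≤ 1 / 4 := by
    rw [Real.exp_neg, inv_le_comm₀ (Real.exp_pos _) (by norm_num)]
    have h5 : Real.exp 2 = Real.exp 1 * Real.exp 1 := by rw [← Real.exp_add]; norm_num
    have := Real.exp_one_gt_d9
    rw [h5]; nlinarith
  exact (Real.exp_le_exp.mpr h3).trans h4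

/-- main bound -/
theorem main_bound : ∀ᶠ n : ℕ in atTop,
    mu (fun σ : Sym2 (Fin n) → Bool => ∃ w : Fin n → ℝ, w ≠ 0 ∧ InKer (ent σ) w ∧ StructuredVec n w) ≤
      (n:ℝ) ^ 2 / 2 ^ n := by
  filter_upwards [evA, evB, evC, evD, eventually_ge_atTop 1000000, ev_sqrt_log (1/1000) (by norm_num),
    Real.isLittleO_log_id_atTop.bound (show (0:ℝ) < 1/100 by norm_num) |> tendsto_natCast_atTop_atTop.eventually,
    (Real.tendsto_log_atTop.comp tendsto_natCast_atTop_atTop).eventually_ge_atTop (100:ℝ)]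
    with n hA hB hC hD hn hsl _ hlog100
  simp only [Function.comp] at hlog100
  have hn0 : (0:ℝ) < n := by exact_mod_cast (by omega : 0 < n)
  have hnR : (1000000:ℝ) ≤ n := by exact_mod_cast hn
  have hlog0 : 0 < Real.log n := by linarith
  set r := Nat.sqrt n + 1 with hr
  set z := ⌈32 * (n:ℝ) / Real.log n⌉₊ with hz
  set K := ⌊Real.sqrt n / 50⌋₊ with hK
  set b : ℝ := (n:ℝ) ^ (-(1 / 4 : ℝ)) with hb
  have hb0 : 0 ≤ b := Real.rpow_nonneg hn0.le _
  have hb1 : b ≤ 1 := Real.rpow_le_one_of_one_le_of_nonpos (by linarith) (by norm_num)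
  have hbr : ∀ f, r ≤ f → lo f ≤ b := by
    intro f hf
    apply lo_le_of_sq f b hb0
    have h1 : b ^ 2 = 1 / Real.sqrt n := by
      rw [hb, ← Real.rpow_natCast, ← Real.rpow_mul hn0.le, Real.sqrt_eq_rpow, one_div (_ ^ _),
        ← Real.rpow_neg hn0.le]
      congr 1
      norm_num
    rw [h1, one_div, inv_mul_eq_div, one_le_div (Real.sqrt_pos.mpr hn0)]
    have h2 : Real.sqrt n ≤ Nat.sqrt n + 1 := by
      have := Real.real_sqrt_lt_nat_sqrt_succ (a := n)
      exact this.le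
    have h3 : ((Nat.sqrt n + 1 : ℕ) : ℝ) ≤ f := by exact_mod_cast hf
    push_cast at h3
    linarith
  have hsp := mu_sparse_le' (n := n) z r b hb0 hb1 hbr (by omega) (by omega)
  set β : ℝ := Real.sqrt ((2 * Real.exp 1 / n) ^ n) with hβ
  have hz2 : 2 * z ≤ n := by
    have h1 : (z:ℝ) < 32 * n / Real.log n + 1 := Nat.ceil_lt_add_one (by positivity)
    have h2 : 32 * (n:ℝ) / Real.log n ≤ 32 * n / 100 := by
      apply div_le_div_of_nonneg_left (by positivity) (by norm_num) hlog100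
    have h3 : (2 * z : ℝ) ≤ n := by linarith
    exact_mod_cast h3
  have hint := mu_int_le (n := n) K z β (by
    intro s hs hns
    apply Real.le_sqrt_of_sq_le
    exact fixed_sq s hs (by omega) (by omega)) (Real.sqrt_nonneg _)
  have hincl : ∀ σ : Sym2 (Fin n) → Bool,
      (∃ w : Fin n → ℝ, w ≠ 0 ∧ InKer (ent σ) w ∧ StructuredVec n w) →
      (Sparse z σ ∨ ∃ w : Fin n → ℤ, w ≠ 0 ∧ (∀ i, |w i| ≤ K) ∧ InKer (ent σ) (fun i => (w i : ℝ))) := by
    rintro σ ⟨w, hw0, hw, hst | hst⟩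
    · left
      refine ⟨w, hw0, hw, ?_⟩
      exact Nat.ceil_le.mpr hst
    · right
      choose m hm using fun i => (hst i).1
      refine ⟨m, ?_, ?_, ?_⟩
      · rintro rfl
        apply hw0
        funext i
        simpa using hm i
      · intro i
        have h1 := (hst i).2
        rw [hm i] at h1
        have h4 : (((m i).natAbs : ℕ) : ℝ) = |(m i : ℝ)| := by
          rw [Nat.cast_natAbs, Int.cast_abs]
        rw [← h4] at h1
        have h5 : (m i).natAbs ≤ K := Nat.le_floor h1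
        rw [Int.abs_eq_natAbs]
        exact_mod_cast h5
      · have : (fun i => (m i : ℝ)) = w := by funext i; exact (hm i).symm
        rw [this]; exact hw
  refine (mu_mono hincl).trans ?_
  refine hint.trans ?_
  have hsum := hsp
  have h4 : (r:ℝ) + 1 = ((Nat.sqrt n + 1 : ℕ) : ℝ) + 1 := by rw [hr]
  have hfin : (n * (n - 1) : ℝ) / 2 ^ n + 3 * ((1 / 4) / (2:ℝ) ^ n) ≤ (n:ℝ) ^ 2 / 2 ^ n := by
    rw [mul_div_assoc', ← add_div]
    apply div_le_div_of_nonneg_right _ (by positivity)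
    nlinarith
  linarith

end Vale.H16.Sym
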